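import Mathlib

namespace Vale.Agent.P346

open MvPolynomial

universe u

/-- The variables of `IMM w d`: the triple `(i, a, b)` is the `(a, b)` entry of the `i`-th matrix. -/
abbrev Var (w d : ℕ) : Type := Fin d × Fin w × Fin w

/-- Iterated matrix multiplication: the top left entry of a product of `d` generic `w × w`
matrices, written as the sum over all index paths starting and ending at the first index. -/
noncomputable def IMM (K : Type u) [Field K] (w d : ℕ) : MvPolynomial (Var w d) K :=
  ∑ v ∈ (Finset.univ : Finset (Fin (d + 1) → Fin w)).filter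
      (fun v => (v 0).val = 0 ∧ (v (Fin.last d)).val = 0),
    ∏ i : Fin d, X (i, v i.castSucc, v i.succ)

/-- A five layer circuit, sum product sum product sum from the output down, over the field `K`
in the variables `V`.  `G0` are the leaves, `G1` the bottom sums, `G2` the lower products,
`G3` the middle sums, `G4` the top products, and there is one output sum gate.
Sum gates have a finite nonempty set of inputs with coefficients, product gates have
a finite nonempty multiset of inputs. -/
structure Circ (K : Type u) (V : Type) : Type (max 1 u) where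
  G0 : Type
  G1 : Type
  G2 : Type
  G3 : Type
  G4 : Type
  fin0 : Finite G0
  fin1 : Finite G1
  fin2 : Finite G2
  fin3 : Finite G3
  fin4 : Finite G4
  leaf : G0 → V ⊕ K
  in1 : G1 → Finset G0
  co1 : G1 → G0 → K
  in2 : G2 → Multiset G1
  in3 : G3 → Finset G2
  co3 : G3 → G2 → K
  in4 : G4 → Multiset G3
  in5 : Finset G4
  co5 : G4 → K
  ne1 : ∀ g, (in1 g).Nonempty
  ne2 : ∀ g, in2 g ≠ 0
  ne3 : ∀ g, (in3 g).Nonempty
  ne4 : ∀ g, in4 g ≠ 0
  ne5 : in5.Nonempty

namespace Circ

variable {K : Type u} {V : Type}

/-- Number of vertices: all leaves and gates, including the output gate. -/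
noncomputable def size (C : Circ K V) : ℕ :=
  Nat.card C.G0 + Nat.card C.G1 + Nat.card C.G2 + Nat.card C.G3 + Nat.card C.G4 + 1

/-- Formal degree of a leaf: one for a variable, zero for a constant. -/
def deg0 (C : Circ K V) (g : C.G0) : ℕ := Sum.elim (fun _ => 1) (fun _ => 0) (C.leaf g)

/-- Formal degree of a bottom sum: the largest (in a homogeneous circuit the common) input degree. -/
def deg1 (C : Circ K V) (g : C.G1) : ℕ := (C.in1 g).sup C.deg0

/-- Formal degree of a lower product: the sum of the input degrees with multiplicity. -/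
def deg2 (C : Circ K V) (g : C.G2) : ℕ := ((C.in2 g).map C.deg1).sum

/-- Formal degree of a middle sum. -/
def deg3 (C : Circ K V) (g : C.G3) : ℕ := (C.in3 g).sup C.deg2

/-- Formal degree of a top product. -/
def deg4 (C : Circ K V) (g : C.G4) : ℕ := ((C.in4 g).map C.deg3).sum

/-- Syntactic homogeneity: all inputs of each sum gate have the same formal degree. -/
def Homog (C : Circ K V) : Prop :=
  (∀ g, ∀ a ∈ C.in1 g, ∀ b ∈ C.in1 g, C.deg0 a = C.deg0 b) ∧
  (∀ g, ∀ a ∈ C.in3 g, ∀ b ∈ C.in3 g, C.deg2 a = C.deg2 b) ∧
  (∀ a ∈ C.in5, ∀ b ∈ C.in5, C.deg4 a = C.deg4 b)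

variable [Field K]

/-- The polynomial at a leaf. -/
noncomputable def val0 (C : Circ K V) (g : C.G0) : MvPolynomial V K :=
  Sum.elim (fun x => X x) (fun c => MvPolynomial.C c) (C.leaf g)

/-- The polynomial at a bottom sum. -/
noncomputable def val1 (C : Circ K V) (g : C.G1) : MvPolynomial V K :=
  ∑ a ∈ C.in1 g, C.co1 g a • C.val0 a

/-- The polynomial at a lower product. -/
noncomputable def val2 (C : Circ K V) (g : C.G2) : MvPolynomial V K :=
  ((C.in2 g).map C.val1).prod

/-- The polynomial at a middle sum. -/
noncomputable def val3 (C : Circ K V) (g : C.G3) : MvPolynomial V K :=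
  ∑ a ∈ C.in3 g, C.co3 g a • C.val2 a

/-- The polynomial at a top product. -/
noncomputable def val4 (C : Circ K V) (g : C.G4) : MvPolynomial V K :=
  ((C.in4 g).map C.val3).prod

/-- The polynomial computed at the output gate. -/
noncomputable def value (C : Circ K V) : MvPolynomial V K :=
  ∑ a ∈ C.in5, C.co5 a • C.val4 a

end Circ

/-- The least size of a syntactically homogeneous five layer circuit computing `IMM n n`. -/
noncomputable def minSize (K : Type u) [Field K] (n : ℕ) : ℕ :=
  sInf {m : ℕ | ∃ C : Circ K (Var n n), C.Homog ∧ C.value = IMM K n n ∧ C.size = m}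

end Vale.Agent.P346
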