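import Vale.Agent.P346.Num
import Vale.Agent.P346.Defs

namespace Vale.Agent.P346

open MvPolynomial

variable {K : Type*} [Field K] {V : Type}

theorem homog_mprod {ι : Type*} (s : Multiset ι) (f : ι → MvPolynomial V K) (d : ι → ℕ)
    (h : ∀ i ∈ s, (f i).IsHomogeneous (d i)) : (s.map f).prod.IsHomogeneous (s.map d).sum := by
  induction s using Multiset.induction_on with
  | empty => simpa using isHomogeneous_one V K
  | cons a s ih =>
    simp only [Multiset.map_cons, Multiset.prod_cons, Multiset.sum_cons]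
    exact (h a (by simp)).mul (ih fun i hi => h i (by simp [hi]))

theorem sup_eq_of_const {ι : Type*} {s : Finset ι} {f : ι → ℕ}
    (h : ∀ a ∈ s, ∀ b ∈ s, f a = f b) {a : ι} (ha : a ∈ s) : s.sup f = f a :=
  le_antisymm (Finset.sup_le fun b hb => (h b hb a ha).le) (Finset.le_sup ha)

theorem homog_smul {f : MvPolynomial V K} {d : ℕ} (c : K) (h : f.IsHomogeneous d) :
    (c • f).IsHomogeneous d := (homogeneousSubmodule V K d).smul_mem c h

namespace Circ

variable (C : Circ K V)

theorem homog0 (g : C.G0) : (C.val0 g).IsHomogeneous (C.deg0 g) := by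
  unfold val0 deg0
  cases C.leaf g with
  | inl x => exact isHomogeneous_X K x
  | inr c => exact isHomogeneous_C V c

omit [Field K] in
theorem deg0_le (g : C.G0) : C.deg0 g ≤ 1 := by
  unfold deg0
  cases C.leaf g <;> simp

omit [Field K] in
theorem deg1_le (g : C.G1) : C.deg1 g ≤ 1 := Finset.sup_le fun a _ => C.deg0_le a

variable {C}

theorem homog1 (hC : C.Homog) (g : C.G1) : (C.val1 g).IsHomogeneous (C.deg1 g) := by
  refine IsHomogeneous.sum _ _ _ fun a ha => homog_smul _ ?_
  rw [deg1, sup_eq_of_const (hC.1 g) ha]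
  exact C.homog0 a

theorem homog2 (hC : C.Homog) (g : C.G2) : (C.val2 g).IsHomogeneous (C.deg2 g) :=
  homog_mprod _ _ _ fun a _ => homog1 hC a

theorem homog3 (hC : C.Homog) (g : C.G3) : (C.val3 g).IsHomogeneous (C.deg3 g) := by
  refine IsHomogeneous.sum _ _ _ fun a ha => homog_smul _ ?_
  rw [deg3, sup_eq_of_const (hC.2.1 g) ha]
  exact homog2 hC a

theorem homog4 (hC : C.Homog) (g : C.G4) : (C.val4 g).IsHomogeneous (C.deg4 g) :=
  homog_mprod _ _ _ fun a _ => homog3 hC a

theorem homog5 (hC : C.Homog) {g : C.G4} (hg : g ∈ C.in5) :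
    C.value.IsHomogeneous (C.deg4 g) := by
  refine IsHomogeneous.sum _ _ _ fun a ha => homog_smul _ ?_
  rw [← hC.2.2 a ha g hg]
  exact homog4 hC a

omit [Field K] in
theorem card_in3_le (g : C.G3) : (C.in3 g).card ≤ C.size := by
  haveI := C.fin2
  haveI := Fintype.ofFinite C.G2
  have := Finset.card_le_univ (C.in3 g)
  rw [← Nat.card_eq_fintype_card] at this
  unfold size
  omega

omit [Field K] in
theorem card_in5_le : C.in5.card ≤ C.size := by
  haveI := C.fin4
  haveI := Fintype.ofFinite C.G4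
  have := Finset.card_le_univ C.in5
  rw [← Nat.card_eq_fintype_card] at this
  unfold size
  omega

end Circ

theorem mprod_le_exp {ι : Type*} (s : Multiset ι) (c : ι → ℝ) (d : ι → ℕ) (κ : ℝ)
    (h0 : ∀ i, 0 ≤ c i) (h : ∀ i ∈ s, c i ≤ Real.exp (- (κ * d i))) :
    (s.map c).prod ≤ Real.exp (- (κ * ((s.map d).sum : ℕ))) := by
  induction s using Multiset.induction_on with
  | empty => simp
  | cons a s ih =>
    simp only [Multiset.map_cons, Multiset.prod_cons, Multiset.sum_cons, Nat.cast_add]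
    rw [mul_add, neg_add, Real.exp_add]
    refine mul_le_mul (h a (by simp)) (ih fun i hi => h i (by simp [hi])) ?_ (Real.exp_pos _).le
    refine Multiset.prod_nonneg fun x hx => ?_
    obtain ⟨i, _, rfl⟩ := Multiset.mem_map.mp hx
    exact h0 i

variable [Fintype V] [DecidableEq V] {wt : V → ℕ × ℕ}

theorem mu_mprod_le (A B : ℝ) (τ : ℕ × ℕ) (hwt : ∀ x, (wt x).1 + (wt x).2 = 1) {ι : Type*}
    (s : Multiset ι) (f : ι → MvPolynomial V K) (d : ι → ℕ)
    (h : ∀ i ∈ s, (f i).IsHomogeneous (d i)) (R : MvPolynomial V K) (r : ℕ)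
    (hR : R.IsHomogeneous r) :
    mu wt A B τ (R * (s.map f).prod) ≤ ZZ wt A B * Real.exp (- ell A B τ / 2) *
      (cc A B r * (s.map fun i => cc A B (d i)).prod) := by
  induction s using Quotient.inductionOn with
  | h l =>
    have := mu_prod_le A B τ hwt ((R, r) :: l.map fun i => (f i, d i)) (by
      intro p hp
      rcases List.mem_cons.mp hp with rfl | hp
      · exact hR
      · obtain ⟨i, hi, rfl⟩ := List.mem_map.mp hp
        exact h i (by simpa using hi))
    simpa [Function.comp_def] using this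

theorem mu_val4_le {L : ℝ} (hL : 48 ≤ L) {n : ℕ} (hn : Real.exp L * Real.exp L = n) (τ : ℕ × ℕ)
    (hwt : ∀ x, (wt x).1 + (wt x).2 = 1) {C : Circ K V} (hC : C.Homog) (t : C.G4)
    (ht : C.deg4 t = n) (A B : ℝ) (hA : A = L + L * Real.exp (- L) / 2)
    (hB : B = L - L * Real.exp (- L) / 2) :
    mu wt A B τ (C.val4 t) ≤ C.size * (ZZ wt A B * Real.exp (- ell A B τ / 2) *
      ((n + 1) * Real.exp (- (L / 8 * Real.exp L)))) := by
  have hZ := ZZ_pos wt A B
  have hE := Real.exp_pos (- L)
  have hinv : Real.exp (- L) * Real.exp L = 1 := by rw [← Real.exp_add]; simp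
  by_cases hs : ∀ g ∈ C.in4 t, (C.deg3 g : ℝ) ≤ Real.exp L
  · have h1 := mu_mprod_le A B τ hwt (C.in4 t) C.val3 C.deg3 (fun g _ => Circ.homog3 hC g) 1 0
      (isHomogeneous_one V K)
    rw [one_mul, cc_zero, one_mul] at h1
    have h2 := mprod_le_exp (C.in4 t) (fun g => cc A B (C.deg3 g)) C.deg3
      (L * Real.exp (- L) / 2 / 4) (fun g => cc_nonneg A B _) (fun g hg => by
        rw [hA, hB]
        refine (cc_small hL _ (hs g hg)).trans (le_of_eq ?_)
        congr 1; ring)
    have h3 : (((C.in4 t).map C.deg3).sum : ℕ) = n := ht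
    rw [h3, ← hn] at h2
    have h4 : L * Real.exp (- L) / 2 / 4 * (Real.exp L * Real.exp L) = L / 8 * Real.exp L := by
      linear_combination (L / 8 * Real.exp L) * hinv
    rw [h4] at h2
    have h5 : (1 : ℝ) ≤ C.size := by
      have : 1 ≤ C.size := by unfold Circ.size; omega
      exact_mod_cast this
    have h6 : (1 : ℝ) ≤ n + 1 := by linarith [Nat.cast_nonneg (α := ℝ) n]
    calc mu wt A B τ (C.val4 t) ≤ _ := h1
      _ ≤ 1 * (ZZ wt A B * Real.exp (- ell A B τ / 2) *
          (1 * Real.exp (- (L / 8 * Real.exp L)))) := by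
          rw [one_mul, one_mul]; gcongr
      _ ≤ _ := by gcongr
  · push Not at hs
    obtain ⟨g, hg, hgL⟩ := hs
    obtain ⟨rest, hrest⟩ := Multiset.exists_cons_of_mem hg
    have hR := homog_mprod rest C.val3 C.deg3 fun g _ => Circ.homog3 hC g
    have hr : (rest.map C.deg3).sum ≤ n := by
      rw [← ht, Circ.deg4, hrest, Multiset.map_cons, Multiset.sum_cons]
      omega
    have e : C.val4 t = ∑ a ∈ C.in3 g, C.co3 g a • ((rest.map C.val3).prod * C.val2 a) := by
      rw [Circ.val4, hrest, Multiset.map_cons, Multiset.prod_cons, Circ.val3, Finset.sum_mul]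
      refine Finset.sum_congr rfl fun a _ => ?_
      rw [smul_mul_assoc, mul_comm]
    rw [e]
    refine (mu_sum_le wt A B τ _ _).trans ?_
    have hb : ∀ a ∈ C.in3 g, mu wt A B τ (C.co3 g a • ((rest.map C.val3).prod * C.val2 a)) ≤
        ZZ wt A B * Real.exp (- ell A B τ / 2) *
          ((n + 1) * Real.exp (- (L / 8 * Real.exp L))) := by
      intro a ha
      refine (mu_smul_le wt A B τ _ _).trans ?_
      refine (mu_mprod_le A B τ hwt (C.in2 a) C.val1 C.deg1 (fun b _ => Circ.homog1 hC b) _ _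
        hR).trans ?_
      have h2 := mprod_le_exp (C.in2 a) (fun b => cc A B (C.deg1 b)) C.deg1 (L / 8)
        (fun b => cc_nonneg A B _) (fun b _ => by
          have h3 := C.deg1_le b
          rcases Nat.le_one_iff_eq_zero_or_eq_one.mp h3 with h4 | h4
          · simp [h4, cc_zero]
          · rw [h4, hA, hB]
            refine (cc_one hL (by positivity) ?_).trans (le_of_eq ?_)
            · have : Real.exp (- L) ≤ 1 := Real.exp_le_one_iff.mpr (by linarith)
              nlinarith
            · congr 1; push_cast; ring)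
      have h3 : (((C.in2 a).map C.deg1).sum : ℕ) = C.deg3 g :=
        (sup_eq_of_const (hC.2.1 g) ha).symm
      rw [h3] at h2
      have h4 : Real.exp (- (L / 8 * C.deg3 g)) ≤ Real.exp (- (L / 8 * Real.exp L)) := by
        rw [Real.exp_le_exp]; nlinarith
      have h5 : cc A B (rest.map C.deg3).sum ≤ n + 1 := by
        refine (cc_gen A B _).trans ?_
        have : (((rest.map C.deg3).sum : ℕ) : ℝ) ≤ n := by exact_mod_cast hr
        linarith
      refine mul_le_mul_of_nonneg_left ?_ (by positivity)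
      refine mul_le_mul h5 (h2.trans h4) ?_ (by positivity)
      refine Multiset.prod_nonneg fun x hx => ?_
      obtain ⟨i, _, rfl⟩ := Multiset.mem_map.mp hx
      exact cc_nonneg A B _
    refine (Finset.sum_le_sum hb).trans ?_
    rw [Finset.sum_const, nsmul_eq_mul]
    have : ((C.in3 g).card : ℝ) ≤ C.size := by exact_mod_cast Circ.card_in3_le g
    gcongr

theorem mu_value_le {L : ℝ} (hL : 48 ≤ L) {n : ℕ} (hn : Real.exp L * Real.exp L = n) (τ : ℕ × ℕ)
    (hwt : ∀ x, (wt x).1 + (wt x).2 = 1) {C : Circ K V} (hC : C.Homog)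
    (ht : ∀ t ∈ C.in5, C.deg4 t = n) (A B : ℝ) (hA : A = L + L * Real.exp (- L) / 2)
    (hB : B = L - L * Real.exp (- L) / 2) :
    mu wt A B τ C.value ≤ C.size * (C.size * (ZZ wt A B * Real.exp (- ell A B τ / 2) *
      ((n + 1) * Real.exp (- (L / 8 * Real.exp L))))) := by
  have hZ := ZZ_pos wt A B
  refine (mu_sum_le wt A B τ _ _).trans ?_
  refine (Finset.sum_le_sum fun t h => (mu_smul_le wt A B τ _ _).trans
    (mu_val4_le hL hn τ hwt hC t (ht t h) A B hA hB)).trans ?_
  rw [Finset.sum_const, nsmul_eq_mul]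
  have : (C.in5.card : ℝ) ≤ C.size := by exact_mod_cast Circ.card_in5_le
  gcongr

end Vale.Agent.P346
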