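import Vale.Agent.P346.Meas

namespace Vale.Agent.P346.Gen

open MvPolynomial Matrix Vale.Agent.P346

structure Enc (V I : Type) where
  emb : I → V →₀ ℕ
  inj : Function.Injective emb
  conv : ∀ S T m, emb S ≤ m → m ≤ emb T → ∃ U, m = emb U

variable {K : Type*} [Field K] {V I : Type} [Fintype I] [DecidableEq I] (E : Enc V I)

noncomputable def MM (f : MvPolynomial V K) : Matrix I I K :=
  Matrix.of fun T S => coeff (E.emb T) (f * monomial (E.emb S) 1)

theorem MM_mul (f g : MvPolynomial V K) : MM E (f * g) = MM E f * MM E g := by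
  classical
  ext T S
  simp only [MM, Matrix.mul_apply, Matrix.of_apply]
  rw [mul_assoc]
  induction g using MvPolynomial.induction_on' with
  | monomial m c =>
    simp only [monomial_mul, coeff_mul_monomial', coeff_monomial]
    by_cases hm : m + E.emb S ≤ E.emb T
    · obtain ⟨U, hU⟩ := E.conv S T _ le_add_self hm
      rw [hU] at hm ⊢
      rw [Finset.sum_eq_single U]
      · simp [hm]
      · intro W _ hW
        have : E.emb U ≠ E.emb W := fun h => hW (E.inj h).symm
        simp [this]
      · simp
    · rw [if_neg hm]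
      symm
      refine Finset.sum_eq_zero fun U _ => ?_
      by_cases hU : m + E.emb S = E.emb U
      · rw [hU] at hm; simp [hm]
      · simp [hU]
  | add p q hp hq =>
    simp only [add_mul, mul_add, coeff_add, hp, hq, Finset.sum_add_distrib]

omit [Fintype I] [DecidableEq I] in
theorem MM_add (f g : MvPolynomial V K) : MM E (f + g) = MM E f + MM E g := by
  ext T S
  simp [MM, add_mul]

omit [Fintype I] [DecidableEq I] in
theorem MM_smul (c : K) (f : MvPolynomial V K) : MM E (c • f) = c • MM E f := by
  ext T S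
  simp [MM]

omit [Fintype I] [DecidableEq I] in
theorem MM_zero : MM E (0 : MvPolynomial V K) = 0 := by
  ext T S
  simp [MM]

noncomputable def key (wt : V → ℕ × ℕ) (S : I) : ℕ × ℕ := Finsupp.weight wt (E.emb S)

noncomputable def DD (K : Type*) [Field K] (wt : V → ℕ × ℕ) (κ : ℕ × ℕ) :
    Matrix I I K :=
  Matrix.diagonal fun S => if key E wt S = κ then 1 else 0

noncomputable def mu (wt : V → ℕ × ℕ) (A B : ℝ) (τ : ℕ × ℕ) (f : MvPolynomial V K) : ℝ :=
  ∑ κ ∈ Finset.univ.image (key E wt),
    Real.exp (ell A B κ) * ((DD E K wt (κ + τ) * MM E f * DD E K wt κ).rank : ℝ)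

noncomputable def ZZ (wt : V → ℕ × ℕ) (A B : ℝ) : ℝ := ∑ S, Real.exp (ell A B (key E wt S))

variable (wt : V → ℕ × ℕ) (A B : ℝ) (τ : ℕ × ℕ)

omit [DecidableEq I] in
theorem ZZ_nonneg : 0 ≤ ZZ E wt A B :=
  Finset.sum_nonneg fun _ _ => (Real.exp_pos _).le

theorem mu_nonneg (f : MvPolynomial V K) : 0 ≤ mu E wt A B τ f :=
  Finset.sum_nonneg fun _ _ => by positivity

theorem mu_zero : mu E wt A B τ (0 : MvPolynomial V K) = 0 := by
  simp [mu, MM_zero]

theorem mu_add_le (f g : MvPolynomial V K) :
    mu E wt A B τ (f + g) ≤ mu E wt A B τ f + mu E wt A B τ g := by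
  unfold mu
  rw [← Finset.sum_add_distrib]
  refine Finset.sum_le_sum fun κ _ => ?_
  rw [← mul_add, MM_add, Matrix.mul_add, Matrix.add_mul]
  refine mul_le_mul_of_nonneg_left ?_ (Real.exp_pos _).le
  exact_mod_cast rank_add_le' _ _

theorem mu_smul_le (c : K) (f : MvPolynomial V K) : mu E wt A B τ (c • f) ≤ mu E wt A B τ f := by
  unfold mu
  refine Finset.sum_le_sum fun κ _ => ?_
  rw [MM_smul, Matrix.mul_smul, Matrix.smul_mul]
  refine mul_le_mul_of_nonneg_left ?_ (Real.exp_pos _).le
  exact_mod_cast rank_smul_le' _ _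

theorem mu_sum_le {ι : Type*} (s : Finset ι) (f : ι → MvPolynomial V K) :
    mu E wt A B τ (∑ i ∈ s, f i) ≤ ∑ i ∈ s, mu E wt A B τ (f i) := by
  classical
  induction s using Finset.induction_on with
  | empty => simp [mu_zero]
  | insert a s ha ih =>
    rw [Finset.sum_insert ha, Finset.sum_insert ha]
    exact (mu_add_le E wt A B τ _ _).trans (by linarith)

variable {E wt}

omit [Fintype I] [DecidableEq I] in
theorem MM_eq_zero {F : MvPolynomial V K} {φ : ℕ × ℕ} (hF : IsWeightedHomogeneous wt F φ)
    {T S : I} (h : key E wt T ≠ key E wt S + φ) : MM E F T S = 0 := by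
  have h1 : IsWeightedHomogeneous wt (F * monomial (E.emb S) (1 : K)) (φ + key E wt S) :=
    hF.mul (isWeightedHomogeneous_monomial wt _ _ rfl)
  refine h1.coeff_eq_zero _ ?_
  rw [add_comm]
  exact h

theorem mu_eq_zero {F : MvPolynomial V K} {φ : ℕ × ℕ} (hF : IsWeightedHomogeneous wt F φ)
    (h : φ ≠ τ) : mu E wt A B τ F = 0 := by
  refine Finset.sum_eq_zero fun κ _ => ?_
  have : DD E K wt (κ + τ) * MM E F * DD E K wt κ = 0 := by
    ext T S
    simp only [DD, Matrix.mul_diagonal, Matrix.diagonal_mul, Matrix.zero_apply]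
    by_cases h1 : key E wt T = κ + τ
    · by_cases h2 : key E wt S = κ
      · rw [MM_eq_zero hF]
        · simp
        · rw [h1, h2]
          intro h3
          exact h (add_left_cancel h3).symm
      · simp [h2]
    · simp [h1]
  simp [this]

theorem MM_mul_DD {G : MvPolynomial V K} {g : ℕ × ℕ} (hG : IsWeightedHomogeneous wt G g)
    (κ : ℕ × ℕ) : MM E G * DD E K wt κ = DD E K wt (κ + g) * (MM E G * DD E K wt κ) := by
  ext T S
  simp only [DD, Matrix.mul_diagonal, Matrix.diagonal_mul]
  by_cases h1 : key E wt T = κ + g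
  · simp [h1]
  · by_cases h2 : key E wt S = κ
    · rw [MM_eq_zero hG]
      · simp
      · rw [h2]; exact h1
    · simp [h2]

theorem rank_DD (κ : ℕ × ℕ) :
    ((DD E K wt κ).rank : ℝ) = ∑ S, (if key E wt S = κ then (1 : ℝ) else 0) := by
  classical
  rw [DD, Matrix.rank_diagonal, Fintype.card_subtype, Finset.sum_boole]
  congr 2
  ext S
  simp

theorem mu_mul_le {G : MvPolynomial V K} {g : ℕ × ℕ} (hG : IsWeightedHomogeneous wt G g)
    (H : MvPolynomial V K) : mu E wt A B τ (H * G) ≤ ZZ E wt A B * Real.exp (- ell A B g) := by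
  have h1 : ∀ κ, ((DD E K wt (κ + τ) * MM E (H * G) * DD E K wt κ).rank : ℝ) ≤
      ∑ S, (if key E wt S = κ + g then (1 : ℝ) else 0) := by
    intro κ
    rw [← rank_DD (K := K), MM_mul, Matrix.mul_assoc, Matrix.mul_assoc, MM_mul_DD hG]
    exact_mod_cast (Matrix.rank_mul_le_right _ _).trans
      ((Matrix.rank_mul_le_right _ _).trans (Matrix.rank_mul_le_left _ _))
  calc mu E wt A B τ (H * G)
      ≤ ∑ κ ∈ Finset.univ.image (key E wt), Real.exp (ell A B κ) *
          ∑ S, (if key E wt S = κ + g then (1 : ℝ) else 0) :=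
        Finset.sum_le_sum fun κ _ => mul_le_mul_of_nonneg_left (h1 κ) (Real.exp_pos _).le
    _ = ∑ S, ∑ κ ∈ Finset.univ.image (key E wt),
          (if key E wt S = κ + g then Real.exp (ell A B (key E wt S)) * Real.exp (- ell A B g)
            else 0) := by
        rw [Finset.sum_comm]
        refine Finset.sum_congr rfl fun κ _ => ?_
        rw [Finset.mul_sum]
        refine Finset.sum_congr rfl fun S _ => ?_
        split_ifs with h
        · rw [h, ell_add, ← Real.exp_add]; simp
        · simp
    _ ≤ ∑ S, Real.exp (ell A B (key E wt S)) * Real.exp (- ell A B g) := by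
        refine Finset.sum_le_sum fun S _ => ?_
        rw [← Finset.sum_filter, Finset.sum_const, nsmul_eq_mul]
        have hc : ((Finset.univ.image (key E wt)).filter (fun κ => key E wt S = κ + g)).card ≤ 1 := by
          rw [Finset.card_le_one]
          intro a ha b hb
          have h2 := (Finset.mem_filter.mp ha).2
          have h3 := (Finset.mem_filter.mp hb).2
          exact add_right_cancel (h2.symm.trans h3)
        have hc' : (((Finset.univ.image (key E wt)).filter
          (fun κ => key E wt S = κ + g)).card : ℝ) ≤ 1 := by exact_mod_cast hc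
        have : 0 < Real.exp (ell A B (key E wt S)) * Real.exp (- ell A B g) := by positivity
        nlinarith
    _ = _ := by rw [ZZ, Finset.sum_mul]

variable [DecidableEq V]

theorem mu_pattern (hwt : ∀ x, (wt x).1 + (wt x).2 = 1)
    (Q : List (MvPolynomial V K × ℕ)) (hQ : ∀ p ∈ Q, p.1.IsHomogeneous p.2) :
    ∀ (G H : MvPolynomial V K) (g h : ℕ × ℕ), IsWeightedHomogeneous wt G g →
      IsWeightedHomogeneous wt H h →
      mu E wt A B τ (H * G * (Q.map Prod.fst).prod) ≤
        ZZ E wt A B * Real.exp ((ell A B h - ell A B g - ell A B τ) / 2) *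
          (Q.map fun p => cc A B p.2).prod := by
  induction Q with
  | nil =>
    intro G H g h hG hH
    simp only [List.map_nil, List.prod_nil, mul_one]
    by_cases hτ : h + g = τ
    · refine (mu_mul_le A B τ hG H).trans (le_of_eq ?_)
      rw [← hτ, ell_add]
      congr 2
      ring
    · rw [mu_eq_zero A B τ (hH.mul hG) hτ]
      have := ZZ_nonneg E wt A B
      positivity
  | cons p Q ih =>
    intro G H g h hG hH
    obtain ⟨q, e⟩ := p
    have hq : q.IsHomogeneous e := hQ (q, e) (by simp)
    have ih' := ih (fun p hp => hQ p (by simp [hp]))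
    simp only [List.map_cons, List.prod_cons]
    rw [homog_split hwt hq, Finset.sum_mul, Finset.mul_sum]
    refine (mu_sum_le E wt A B τ _ _).trans ?_
    rw [cc, Finset.sum_mul, Finset.mul_sum]
    refine Finset.sum_le_sum fun a _ => ?_
    have hc := weightedHomogeneousComponent_isWeightedHomogeneous (w := wt) (a, e - a) q
    generalize weightedHomogeneousComponent wt (a, e - a) q = r at hc
    generalize ((a, e - a) : ℕ × ℕ) = φ at hc
    rcases le_total 0 (ell A B φ) with h0 | h0
    · have := ih' (G * r) H (g + φ) h (hG.mul hc) hH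
      rw [show H * G * (r * (Q.map Prod.fst).prod) = H * (G * r) * (Q.map Prod.fst).prod by ring]
      refine this.trans (le_of_eq ?_)
      rw [abs_of_nonneg h0, ell_add, ← mul_assoc, mul_assoc (ZZ E wt A B) (Real.exp _) (Real.exp _),
        ← Real.exp_add]
      congr 3
      ring
    · have := ih' G (H * r) g (h + φ) hG (hH.mul hc)
      rw [show H * G * (r * (Q.map Prod.fst).prod) = H * r * G * (Q.map Prod.fst).prod by ring]
      refine this.trans (le_of_eq ?_)
      rw [abs_of_nonpos h0, ell_add, ← mul_assoc, mul_assoc (ZZ E wt A B) (Real.exp _) (Real.exp _),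
        ← Real.exp_add]
      congr 3
      ring

theorem mu_prod_le (hwt : ∀ x, (wt x).1 + (wt x).2 = 1)
    (Q : List (MvPolynomial V K × ℕ)) (hQ : ∀ p ∈ Q, p.1.IsHomogeneous p.2) :
    mu E wt A B τ (Q.map Prod.fst).prod ≤
      ZZ E wt A B * Real.exp (- ell A B τ / 2) * (Q.map fun p => cc A B p.2).prod := by
  have := mu_pattern (E := E) A B τ hwt Q hQ 1 1 0 0 (isWeightedHomogeneous_one K wt)
    (isWeightedHomogeneous_one K wt)
  simpa [ell_zero] using this

end Vale.Agent.P346.Gen
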