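import Vale.Agent.P346.G1
import Vale.Agent.P346.Bound

namespace Vale.Agent.P346.Gen

open MvPolynomial Vale.Agent.P346

theorem num_even {L y : ℝ} (hL : 48 ≤ L) (h1 : 12 * Real.exp (- L) ≤ y) (h2 : y ≤ L / 8) :
    Real.exp (- y) + 4 * Real.exp (- L) * Real.exp (3 * y) ≤ 1 := by
  have hE := Real.exp_pos (- L)
  have hy : 0 ≤ y := le_trans (by positivity) h1
  have h3 : 4 * Real.exp (- L) * Real.exp (4 * y) ≤ y := by
    rcases le_total y (1 / 4) with h | h
    · have h4 : Real.exp (4 * y) ≤ 3 :=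
        (Real.exp_le_exp.mpr (by linarith : 4 * y ≤ 1)).trans
          (by linarith [Real.exp_one_lt_d9])
      nlinarith
    · have h4 : Real.exp (- L) * Real.exp (4 * y) * Real.exp (L / 2) ≤ 1 := by
        rw [← Real.exp_add, ← Real.exp_add, Real.exp_le_one_iff]; linarith
      have h5 := Real.add_one_le_exp (L / 2)
      have h6 : 0 < Real.exp (- L) * Real.exp (4 * y) := by positivity
      nlinarith
  have h4 : Real.exp (4 * y) = Real.exp (3 * y) * Real.exp y := by
    rw [← Real.exp_add]; congr 1; ring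
  have h5 := Real.add_one_le_exp y
  have h6 : Real.exp (- y) * Real.exp y = 1 := by rw [← Real.exp_add]; simp
  have h7 := Real.exp_pos y
  refine le_of_mul_le_mul_right ?_ h7
  rw [h4] at h3
  nlinarith

theorem cc_small {L ε : ℝ} (hL : 48 ≤ L) (hε : 24 * Real.exp (- L) ≤ ε) (e : ℕ)
    (hx : ε * e ≤ L / 2) : cc (L + ε) (L - ε) e ≤ Real.exp (- (ε * e) / 4) := by
  have hE := Real.exp_pos (- L)
  have hε0 : 0 ≤ ε := by linarith
  have hs0 := (Real.exp_pos (- L / 2)).le
  have hs1 : Real.exp (- L / 2) ≤ 1 / 2 := by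
    have h1 : Real.exp (- L / 2) * Real.exp (L / 2) = 1 := by rw [← Real.exp_add]; simp [neg_div]
    have h2 := Real.add_one_le_exp (L / 2)
    nlinarith
  have h := cc_le_FF (L := L) (by linarith) hε0 e
  rcases Nat.even_or_odd' e with ⟨m, rfl | rfl⟩
  · rcases Nat.eq_zero_or_pos m with rfl | hm
    · simp [cc_zero]
    have h1 : (∑ a ∈ Finset.range (2 * m + 1),
        if 2 * a = 2 * m then Real.exp (- (ε * (2 * m : ℕ)) / 2) else 0) =
        Real.exp (- (ε * (2 * m : ℕ)) / 2) := by
      rw [Finset.sum_eq_single m]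
      · simp
      · intro b _ hb
        rw [if_neg (by omega)]
      · intro h
        exact absurd (Finset.mem_range.mpr (by omega)) h
    rw [h1] at h
    have h2 := FF_even hs0 hs1 m
    have h3 : Real.exp (- L / 2) ^ 2 = Real.exp (- L) := by
      rw [← Real.exp_nat_mul]; congr 1; push_cast; ring
    rw [h3] at h2
    have h4 : (2 : ℝ) ≤ (2 * m : ℕ) := by exact_mod_cast (by omega : 2 ≤ 2 * m)
    generalize ((2 * m : ℕ) : ℝ) = t at *
    have h5 := num_even (y := ε * t / 4) hL (by nlinarith) (by linarith)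
    have h6 : Real.exp (- (ε * t) / 2) = Real.exp (- (ε * t / 4)) * Real.exp (- (ε * t) / 4) := by
      rw [← Real.exp_add]; congr 1; ring
    have h7 : Real.exp (ε * t / 2) = Real.exp (3 * (ε * t / 4)) * Real.exp (- (ε * t) / 4) := by
      rw [← Real.exp_add]; congr 1; ring
    have h8 := Real.exp_pos (- (ε * t) / 4)
    have h9 := mul_le_mul_of_nonneg_right h5 h8.le
    have h10 := mul_le_mul_of_nonneg_right h2 (Real.exp_pos (ε * t / 2)).le
    rw [h7] at h10 h
    rw [h6] at h
    nlinarith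
  · have h1 : (∑ a ∈ Finset.range (2 * m + 1 + 1),
        if 2 * a = 2 * m + 1 then Real.exp (- (ε * (2 * m + 1 : ℕ)) / 2) else 0) = 0 :=
      Finset.sum_eq_zero fun a _ => if_neg (by omega)
    rw [h1, zero_add] at h
    have h2 := FF_odd hs0 hs1 m
    generalize ((2 * m + 1 : ℕ) : ℝ) = t at *
    have h3 := mul_le_mul_of_nonneg_right h2 (Real.exp_pos (ε * t / 2)).le
    refine h.trans (h3.trans ?_)
    have h4 : Real.exp (- (ε * t) / 4) =
        Real.exp (L / 2 - 3 * (ε * t) / 4) * (Real.exp (- L / 2) * Real.exp (ε * t / 2)) := by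
      rw [← Real.exp_add, ← Real.exp_add]; congr 1; ring
    have h5 := Real.add_one_le_exp (L / 2 - 3 * (ε * t) / 4)
    have h6 : 0 < Real.exp (- L / 2) * Real.exp (ε * t / 2) := by positivity
    rw [h4, mul_assoc]
    exact mul_le_mul_of_nonneg_right (by linarith) h6.le

variable {K : Type*} [Field K] {V I : Type} [Fintype I] [DecidableEq I] [DecidableEq V]
  (E : Enc V I) {wt : V → ℕ × ℕ}

theorem mu_mprod_le (A B : ℝ) (τ : ℕ × ℕ) (hwt : ∀ x, (wt x).1 + (wt x).2 = 1) {ι : Type*}
    (s : Multiset ι) (f : ι → MvPolynomial V K) (d : ι → ℕ)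
    (h : ∀ i ∈ s, (f i).IsHomogeneous (d i)) (R : MvPolynomial V K) (r : ℕ)
    (hR : R.IsHomogeneous r) :
    mu E wt A B τ (R * (s.map f).prod) ≤ ZZ E wt A B * Real.exp (- ell A B τ / 2) *
      (cc A B r * (s.map fun i => cc A B (d i)).prod) := by
  induction s using Quotient.inductionOn with
  | h l =>
    have := mu_prod_le (E := E) A B τ hwt ((R, r) :: l.map fun i => (f i, d i)) (by
      intro p hp
      rcases List.mem_cons.mp hp with rfl | hp
      · exact hR
      · obtain ⟨i, hi, rfl⟩ := List.mem_map.mp hp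
        exact h i (by simpa using hi))
    simpa [Function.comp_def] using this

theorem mu_val4_le {L ε r : ℝ} (hL : 48 ≤ L) (hε : 24 * Real.exp (- L) ≤ ε) (hr : 1 ≤ r)
    (hεr : ε * r = L / 2) {n : ℕ} (hn : r * r = n) (τ : ℕ × ℕ)
    (hwt : ∀ x, (wt x).1 + (wt x).2 = 1) {C : Circ K V} (hC : C.Homog) (t : C.G4)
    (ht : C.deg4 t = n) (A B : ℝ) (hA : A = L + ε)
    (hB : B = L - ε) :
    mu E wt A B τ (C.val4 t) ≤ C.size * (ZZ E wt A B * Real.exp (- ell A B τ / 2) *
      ((n + 1) * Real.exp (- (L / 8 * r)))) := by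
  have hZ := ZZ_nonneg E wt A B
  have hE := Real.exp_pos (- L)
  have hε0 : 0 < ε := by linarith
  by_cases hs : ∀ g ∈ C.in4 t, (C.deg3 g : ℝ) ≤ r
  · have h1 := mu_mprod_le E A B τ hwt (C.in4 t) C.val3 C.deg3 (fun g _ => Circ.homog3 hC g) 1 0
      (isHomogeneous_one V K)
    rw [one_mul, cc_zero, one_mul] at h1
    have h2 := mprod_le_exp (C.in4 t) (fun g => cc A B (C.deg3 g)) C.deg3
      (ε / 4) (fun g => cc_nonneg A B _) (fun g hg => by
        rw [hA, hB]
        refine (cc_small hL hε _ (by rw [← hεr]; gcongr; exact hs g hg)).trans (le_of_eq ?_)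
        congr 1; ring)
    have h3 : (((C.in4 t).map C.deg3).sum : ℕ) = n := ht
    rw [h3, ← hn] at h2
    have h4 : ε / 4 * (r * r) = L / 8 * r := by
      linear_combination (r / 4) * hεr
    rw [h4] at h2
    have h5 : (1 : ℝ) ≤ C.size := by
      have : 1 ≤ C.size := by unfold Circ.size; omega
      exact_mod_cast this
    have h6 : (1 : ℝ) ≤ n + 1 := by linarith [Nat.cast_nonneg (α := ℝ) n]
    calc mu E wt A B τ (C.val4 t) ≤ _ := h1
      _ ≤ 1 * (ZZ E wt A B * Real.exp (- ell A B τ / 2) *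
          (1 * Real.exp (- (L / 8 * r)))) := by
          rw [one_mul, one_mul]; gcongr
      _ ≤ _ := by gcongr
  · push Not at hs
    obtain ⟨g, hg, hgL⟩ := hs
    obtain ⟨rest, hrest⟩ := Multiset.exists_cons_of_mem hg
    have hR := homog_mprod rest C.val3 C.deg3 fun g _ => Circ.homog3 hC g
    have hr' : (rest.map C.deg3).sum ≤ n := by
      rw [← ht, Circ.deg4, hrest, Multiset.map_cons, Multiset.sum_cons]
      omega
    have e : C.val4 t = ∑ a ∈ C.in3 g, C.co3 g a • ((rest.map C.val3).prod * C.val2 a) := by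
      rw [Circ.val4, hrest, Multiset.map_cons, Multiset.prod_cons, Circ.val3, Finset.sum_mul]
      refine Finset.sum_congr rfl fun a _ => ?_
      rw [smul_mul_assoc, mul_comm]
    rw [e]
    refine (mu_sum_le E wt A B τ _ _).trans ?_
    have hb : ∀ a ∈ C.in3 g, mu E wt A B τ (C.co3 g a • ((rest.map C.val3).prod * C.val2 a)) ≤
        ZZ E wt A B * Real.exp (- ell A B τ / 2) *
          ((n + 1) * Real.exp (- (L / 8 * r))) := by
      intro a ha
      refine (mu_smul_le E wt A B τ _ _).trans ?_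
      refine (mu_mprod_le E A B τ hwt (C.in2 a) C.val1 C.deg1 (fun b _ => Circ.homog1 hC b) _ _
        hR).trans ?_
      have h2 := mprod_le_exp (C.in2 a) (fun b => cc A B (C.deg1 b)) C.deg1 (L / 8)
        (fun b => cc_nonneg A B _) (fun b _ => by
          have h3 := C.deg1_le b
          rcases Nat.le_one_iff_eq_zero_or_eq_one.mp h3 with h4 | h4
          · simp [h4, cc_zero]
          · rw [h4, hA, hB]
            refine (cc_one hL hε0.le ?_).trans (le_of_eq ?_)
            · nlinarith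
            · congr 1; push_cast; ring)
      have h3 : (((C.in2 a).map C.deg1).sum : ℕ) = C.deg3 g :=
        (sup_eq_of_const (hC.2.1 g) ha).symm
      rw [h3] at h2
      have h4 : Real.exp (- (L / 8 * C.deg3 g)) ≤ Real.exp (- (L / 8 * r)) := by
        rw [Real.exp_le_exp]; nlinarith
      have h5 : cc A B (rest.map C.deg3).sum ≤ n + 1 := by
        refine (cc_gen A B _).trans ?_
        have : (((rest.map C.deg3).sum : ℕ) : ℝ) ≤ n := by exact_mod_cast hr'
        linarith
      refine mul_le_mul_of_nonneg_left ?_ (by positivity)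
      refine mul_le_mul h5 (h2.trans h4) ?_ (by positivity)
      refine Multiset.prod_nonneg fun x hx => ?_
      obtain ⟨i, _, rfl⟩ := Multiset.mem_map.mp hx
      exact cc_nonneg A B _
    refine (Finset.sum_le_sum hb).trans ?_
    rw [Finset.sum_const, nsmul_eq_mul]
    have : ((C.in3 g).card : ℝ) ≤ C.size := by exact_mod_cast Circ.card_in3_le g
    gcongr

theorem mu_value_le {L ε r : ℝ} (hL : 48 ≤ L) (hε : 24 * Real.exp (- L) ≤ ε) (hr : 1 ≤ r)
    (hεr : ε * r = L / 2) {n : ℕ} (hn : r * r = n) (τ : ℕ × ℕ)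
    (hwt : ∀ x, (wt x).1 + (wt x).2 = 1) {C : Circ K V} (hC : C.Homog)
    (ht : ∀ t ∈ C.in5, C.deg4 t = n) (A B : ℝ) (hA : A = L + ε)
    (hB : B = L - ε) :
    mu E wt A B τ C.value ≤ C.size * (C.size * (ZZ E wt A B * Real.exp (- ell A B τ / 2) *
      ((n + 1) * Real.exp (- (L / 8 * r))))) := by
  have hZ := ZZ_nonneg E wt A B
  refine (mu_sum_le E wt A B τ _ _).trans ?_
  refine (Finset.sum_le_sum fun t h => (mu_smul_le E wt A B τ _ _).trans
    (mu_val4_le E hL hε hr hεr hn τ hwt hC t (ht t h) A B hA hB)).trans ?_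
  rw [Finset.sum_const, nsmul_eq_mul]
  have : (C.in5.card : ℝ) ≤ C.size := by exact_mod_cast Circ.card_in5_le
  gcongr

end Vale.Agent.P346.Gen
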