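import Vale.Agent.P346.Lower2
import Vale.Agent.P346.Defs

namespace Vale.Agent.P346

open MvPolynomial

noncomputable def pre (A B : ℝ) : ℕ → ℝ
  | 0 => 0
  | i + 1 => if pre A B i ≤ 0 then pre A B i + A else pre A B i - B

noncomputable def wl (A B : ℝ) (i : ℕ) : ℕ × ℕ := if pre A B i ≤ 0 then (1, 0) else (0, 1)

noncomputable def wtI (A B : ℝ) (n : ℕ) (x : Var n n) : ℕ × ℕ := wl A B x.1

noncomputable def tauI (A B : ℝ) (n : ℕ) : ℕ × ℕ := ∑ i : Fin n, wl A B i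

theorem wtI_sum (A B : ℝ) (n : ℕ) (x : Var n n) : (wtI A B n x).1 + (wtI A B n x).2 = 1 := by
  unfold wtI wl
  split_ifs <;> rfl

theorem pre_succ (A B : ℝ) (i : ℕ) : pre A B (i + 1) = pre A B i + ell A B (wl A B i) := by
  rw [pre, wl]
  split_ifs <;> simp [ell, sub_eq_add_neg]

theorem ell_tauI (A B : ℝ) (n : ℕ) : ell A B (tauI A B n) = pre A B n := by
  rw [tauI, Fin.sum_univ_eq_sum_range (fun i => wl A B i) n, ell_sum]
  induction n with
  | zero => simp [pre]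
  | succ n ih => rw [Finset.sum_range_succ, ih, pre_succ]

theorem pre_bounds {A B : ℝ} (hA : 0 ≤ A) (hB : 0 ≤ B) (i : ℕ) :
    - B ≤ pre A B i ∧ pre A B i ≤ A := by
  induction i with
  | zero => simp [pre, hA, hB]
  | succ i ih =>
    rw [pre]
    split_ifs with h
    · constructor <;> linarith [ih.1, ih.2]
    · constructor <;> linarith [ih.1, ih.2]

def edg {n : ℕ} (v : Fin (n + 1) → Fin n) (x : Var n n) : Bool :=
  decide (x.2 = (v x.1.castSucc, v x.1.succ))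

def paths (n : ℕ) : Finset (Fin (n + 1) → Fin n) :=
  Finset.univ.filter (fun v => (v 0).val = 0 ∧ (v (Fin.last n)).val = 0)

theorem paths_eq {n : ℕ} (hn : 0 < n) : paths n =
    Finset.univ.filter (fun v => v 0 = ⟨0, hn⟩ ∧ v (Fin.last n) = ⟨0, hn⟩) := by
  ext v
  simp [paths, Fin.ext_iff]

theorem IMM_eq (K : Type*) [Field K] (n : ℕ) :
    IMM K n n = ∑ v ∈ paths n, monomial (emb (edg v)) (1 : K) := by
  refine Finset.sum_congr rfl fun v _ => ?_
  have : emb (edg v) = ∑ i : Fin n, Finsupp.single (i, v i.castSucc, v i.succ) 1 := by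
    ext ⟨j, e⟩
    rw [Finsupp.finset_sum_apply, Finset.sum_eq_single j]
    · by_cases h : e = (v j.castSucc, v j.succ)
      · simp [edg, h]
      · have h' : ¬ (v j.castSucc, v j.succ) = e := fun h'' => h h''.symm
        simp [edg, h, h']
    · intro b _ hb
      simp [hb]
    · simp
  rw [this, monomial_sum_one]
  rfl

theorem key_edg (A B : ℝ) {n : ℕ} (v : Fin (n + 1) → Fin n) :
    key (wtI A B n) (edg v) = tauI A B n := by
  rw [key_eq, Fintype.sum_prod_type, tauI]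
  refine Finset.sum_congr rfl fun i _ => ?_
  rw [Finset.sum_eq_single (v i.castSucc, v i.succ)]
  · simp [edg, wtI]
  · intro b _ hb
    simp [edg, hb]
  · simp

theorem PM_ones {n : ℕ} (m : ℕ) (x y : Fin n) :
    PM (fun _ => (Matrix.of fun _ _ => (1 : ℝ) : Matrix (Fin n) (Fin n) ℝ)) (m + 1) x y =
      (n : ℝ) ^ m := by
  induction m generalizing y with
  | zero => simp [PM_succ, PM_zero]
  | succ m ih =>
    rw [PM_succ, Matrix.mul_apply]
    simp [ih, pow_succ, mul_comm]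

theorem card_paths {n : ℕ} (hn : 0 < n) : ((paths n).card : ℝ) * n = (n : ℝ) ^ n := by
  obtain ⟨m, rfl⟩ : ∃ m, n = m + 1 := ⟨n - 1, by omega⟩
  have h := PM_ones (n := m + 1) m ⟨0, hn⟩ ⟨0, hn⟩
  rw [PM_path] at h
  rw [paths_eq hn, pow_succ, ← h]
  simp

theorem four_paths {n : ℕ} (hn : 0 < n) (γ : ℕ → ℝ) :
    ∑ v1 ∈ paths n, ∑ v2 ∈ paths n, ∑ v4 ∈ paths n, ∑ v3 ∈ paths n,
      ∏ i : Fin n, kern γ i (v1 i.castSucc, v2 i.castSucc, v3 i.castSucc, v4 i.castSucc)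
        (v1 i.succ, v2 i.succ, v3 i.succ, v4 i.succ) =
      PM (kern γ) n ((⟨0, hn⟩ : Fin n), ⟨0, hn⟩, ⟨0, hn⟩, ⟨0, hn⟩)
        ((⟨0, hn⟩ : Fin n), ⟨0, hn⟩, ⟨0, hn⟩, ⟨0, hn⟩) := by
  rw [PM_path]
  simp only [← Finset.sum_product']
  refine Finset.sum_nbij' (fun q j => (q.1 j, q.2.1 j, q.2.2.2 j, q.2.2.1 j))
    (fun p => (fun j => (p j).1, fun j => (p j).2.1, fun j => (p j).2.2.2,
      fun j => (p j).2.2.1)) ?_ ?_ ?_ ?_ ?_
  · rintro ⟨a, b, c, d⟩
    simp only [paths_eq hn, Finset.mem_product, Finset.mem_filter, Finset.mem_univ, true_and,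
      Prod.mk.injEq]
    tauto
  · intro p
    simp only [paths_eq hn, Finset.mem_product, Finset.mem_filter, Finset.mem_univ, true_and]
    rintro ⟨h1, h2⟩
    simp [h1, h2]
  · intro q _; rfl
  · intro p _; rfl
  · intro q _; rfl

theorem kern_eq {F : Type} [Fintype F] [DecidableEq F] (γ : ℕ → ℝ) (i : ℕ)
    (a1 a2 a3 a4 b1 b2 b3 b4 : F) :
    kern γ i (a1, a2, a3, a4) (b1, b2, b3, b4) =
      (if (a1, b1) = (a2, b2) ∧ (a3, b3) = (a4, b4) then 1 else 0) +
        γ i * (if (a1, b1) = (a4, b4) ∧ (a2, b2) = (a3, b3) then 1 else 0) := by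
  simp only [kern, al, be, Matrix.of_apply, Prod.mk.injEq, ite_zero_mul_ite_zero, mul_one]
  congr 1
  · exact if_congr (by tauto) rfl rfl
  · congr 1
    exact if_congr (by tauto) rfl rfl

theorem mu_IMM (K : Type*) [Field K] [CharZero K] {n : ℕ} (hn : 0 < n) {A B : ℝ} (hB : 0 ≤ B)
    (hBA : B ≤ A) :
    ZZ (wtI A B n) A B ≤ mu (wtI A B n) A B (tauI A B n) (IMM K n n) *
      (Real.exp A * Real.exp (Real.exp A) * (n : ℝ) ^ 2) := by
  have hA : 0 ≤ A := hB.trans hBA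
  set γ : ℕ → ℝ := fun i => Real.exp (ell A B (wl A B i)) with hγ
  have hγ0 : ∀ i, 0 < γ i := fun i => Real.exp_pos _
  have hg : ∀ x : Var n n, gam (wtI A B n) A B x = γ x.1 := fun x => rfl
  have h0 := mu_lower' (K := K) (wtI A B n) A B (tauI A B n) (paths n) edg
    (fun v _ => key_edg A B v)
  rw [← IMM_eq] at h0
  set μ := mu (wtI A B n) A B (tauI A B n) (IMM K n n) with hμ
  have hμ0 : 0 ≤ μ := mu_nonneg _ _ _ _ _
  set Z := ZZ (wtI A B n) A B with hZ
  have hZ0 : 0 < Z := ZZ_pos _ _ _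
  have hZ1 : Z = ∏ i : Fin n, ∏ _e : Fin n × Fin n, (1 + γ i) := by
    rw [hZ, ZZ_eq, Fintype.prod_prod_type]
    rfl
  set Y : ℝ := ∏ i : Fin n, (1 + γ i) with hY
  have h2 : (∑ v ∈ paths n, ∏ x, (if edg v x then 1 else 1 + gam (wtI A B n) A B x)) * Y =
      (paths n).card * Z := by
    rw [Finset.sum_mul, ← nsmul_eq_mul, ← Finset.sum_const]
    refine Finset.sum_congr rfl fun v _ => ?_
    rw [hZ1, Fintype.prod_prod_type, hY, ← Finset.prod_mul_distrib]
    exact Finset.prod_congr rfl fun i _ => layer2 (γ i) (v i.castSucc, v i.succ)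
  have h4 : (∑ v1 ∈ paths n, ∑ v2 ∈ paths n, ∑ v4 ∈ paths n, ∑ v3 ∈ paths n,
      ∏ x, gfun (gam (wtI A B n) A B x) (edg v1 x) (edg v2 x) (edg v3 x) (edg v4 x)) * Y ^ 2 ≤
      Z * PM (kern γ) n ((⟨0, hn⟩ : Fin n), ⟨0, hn⟩, ⟨0, hn⟩, ⟨0, hn⟩)
        ((⟨0, hn⟩ : Fin n), ⟨0, hn⟩, ⟨0, hn⟩, ⟨0, hn⟩) := by
    rw [← four_paths hn γ]
    simp only [Finset.sum_mul, Finset.mul_sum]
    refine Finset.sum_le_sum fun v1 _ => Finset.sum_le_sum fun v2 _ =>
      Finset.sum_le_sum fun v4 _ => Finset.sum_le_sum fun v3 _ => ?_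
    rw [hZ1, Fintype.prod_prod_type, hY, ← Finset.prod_pow, ← Finset.prod_mul_distrib,
      ← Finset.prod_mul_distrib]
    refine Finset.prod_le_prod (fun i _ => ?_) (fun i _ => ?_)
    · exact mul_nonneg (Finset.prod_nonneg fun e _ => gfun_nonneg (hγ0 i) _ _ _ _) (by positivity)
    · rw [kern_eq]
      exact layer4 (hγ0 i) (v1 i.castSucc, v1 i.succ) (v2 i.castSucc, v2 i.succ)
        (v3 i.castSucc, v3 i.succ) (v4 i.castSucc, v4 i.succ)
  have h5 := transfer' (F := Fin n) (pre A B) γ (Real.exp A) (Real.one_le_exp hA)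
    (fun i => by rw [pre_succ, Real.exp_add])
    (fun i => Real.exp_le_exp.mpr (pre_bounds hA hB i).2)
    (fun i => Real.exp_le_exp.mpr (by linarith [(pre_bounds hA hB i).1])) ⟨0, hn⟩
  rw [Fintype.card_fin] at h5
  rw [← card_paths hn] at h5
  have hP : (0 : ℝ) < (paths n).card := by
    have h6 := card_paths hn
    have h7 : (0 : ℝ) < (n : ℝ) := by exact_mod_cast hn
    have h8 : (0 : ℝ) < (n : ℝ) ^ n := by positivity
    rw [← h6] at h8
    exact (mul_pos_iff_of_pos_right h7).mp h8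
  have h9 : ((paths n).card * Z) ^ 2 ≤
      μ * (Z * (Real.exp A * Real.exp (Real.exp A) * (((paths n).card : ℝ) * n) ^ 2)) := by
    rw [← h2, mul_pow]
    refine (mul_le_mul_of_nonneg_right h0 (sq_nonneg Y)).trans ?_
    rw [mul_assoc]
    refine mul_le_mul_of_nonneg_left (h4.trans ?_) hμ0
    exact mul_le_mul_of_nonneg_left h5 hZ0.le
  have h10 : (((paths n).card : ℝ) ^ 2 * Z) * Z ≤ (((paths n).card : ℝ) ^ 2 * Z) *
      (μ * (Real.exp A * Real.exp (Real.exp A) * (n : ℝ) ^ 2)) := by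
    calc _ = ((paths n).card * Z) ^ 2 := by ring
      _ ≤ _ := h9
      _ = _ := by ring
  exact le_of_mul_le_mul_left h10 (by positivity)

end Vale.Agent.P346
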