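import Vale.Agent.P346.Bound
import Vale.Agent.P346.Lower3

namespace Vale.Agent.P346

open MvPolynomial

theorem IMM_homog (K : Type*) [Field K] (w d : ℕ) : (IMM K w d).IsHomogeneous d := by
  refine IsHomogeneous.sum _ _ _ fun v _ => ?_
  have := IsHomogeneous.prod Finset.univ
    (fun i : Fin d => (X (i, v i.castSucc, v i.succ) : MvPolynomial (Var w d) K)) (fun _ => 1)
    (fun i _ => isHomogeneous_X K _)
  simpa using this

theorem size_lower_aux {K : Type*} [Field K] [CharZero K] {L : ℝ} (hL : 200 ≤ L) {n : ℕ}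
    (hn : Real.exp L * Real.exp L = n) (C : Circ K (Var n n)) (hC : C.Homog)
    (hv : C.value = IMM K n n) : Real.exp (L * Real.exp L / 32) ≤ C.size := by
  have hr := Real.exp_pos L
  have hn0 : 0 < n := by
    have : (0 : ℝ) < n := by rw [← hn]; positivity
    exact_mod_cast this
  have hE := Real.exp_pos (- L)
  have hinv : Real.exp (- L) * Real.exp L = 1 := by rw [← Real.exp_add]; simp
  have hLr : L ≤ Real.exp L := by linarith [Real.add_one_le_exp L]
  have hε0 : 0 ≤ L * Real.exp (- L) / 2 := by positivity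
  have hε1 : L * Real.exp (- L) / 2 ≤ 1 := by nlinarith
  obtain ⟨A, hA⟩ : ∃ A, A = L + L * Real.exp (- L) / 2 := ⟨_, rfl⟩
  obtain ⟨B, hB⟩ : ∃ B, B = L - L * Real.exp (- L) / 2 := ⟨_, rfl⟩
  have hB0 : 0 ≤ B := by linarith
  have hBA : B ≤ A := by linarith
  have h1 := mu_IMM K hn0 hB0 hBA
  have hZ := ZZ_pos (wtI A B n) A B
  have hne : IMM K n n ≠ 0 := by
    intro h
    rw [h, mu_zero] at h1
    linarith
  have hd : ∀ t ∈ C.in5, C.deg4 t = n := fun t ht =>
    IsHomogeneous.inj_right (hv ▸ Circ.homog5 hC ht) (IMM_homog K n n) hne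
  have h2 := mu_value_le (by linarith) hn (tauI A B n) (wtI_sum A B n) hC hd A B hA hB
  rw [hv, ell_tauI] at h2
  have h3 : Real.exp (- pre A B n / 2) ≤ Real.exp (L / 2) := by
    rw [Real.exp_le_exp]
    linarith [(pre_bounds (hB0.trans hBA) hB0 n).1]
  have h4 : (n : ℝ) + 1 ≤ Real.exp (2 * L + 1) := by
    have : (1 : ℝ) ≤ n := by exact_mod_cast hn0
    have h5 := Real.add_one_le_exp 1
    rw [two_mul, Real.exp_add, Real.exp_add, hn]
    nlinarith
  have h5 : Real.exp A ≤ Real.exp (L + 1) := Real.exp_le_exp.mpr (by linarith)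
  have h6 : Real.exp (Real.exp A) ≤ Real.exp (3 * Real.exp L) := by
    rw [Real.exp_le_exp]
    refine h5.trans ?_
    rw [Real.exp_add]
    nlinarith [Real.exp_one_lt_d9]
  have h7 : (n : ℝ) ^ 2 = Real.exp (4 * L) := by
    rw [← hn, ← Real.exp_add, ← Real.exp_nat_mul]; congr 1; push_cast; ring
  set s : ℝ := (C.size : ℝ) with hs
  have hs0 : 0 ≤ s := Nat.cast_nonneg _
  set Z := ZZ (wtI A B n) A B
  have h8 : Z ≤ (s * (s * (Z * Real.exp (L / 2) *
      (Real.exp (2 * L + 1) * Real.exp (- (L / 8 * Real.exp L)))))) *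
      (Real.exp (L + 1) * Real.exp (3 * Real.exp L) * Real.exp (4 * L)) := by
    refine h1.trans ?_
    rw [h7]
    refine mul_le_mul (h2.trans ?_) ?_ (by positivity) (by positivity)
    · gcongr
    · gcongr
  have h9 : Real.exp (L / 2) * Real.exp (2 * L + 1) * Real.exp (- (L / 8 * Real.exp L)) *
      Real.exp (L + 1) * Real.exp (3 * Real.exp L) * Real.exp (4 * L) *
      (Real.exp (L * Real.exp L / 32)) ^ 2 ≤ 1 := by
    rw [← Real.exp_nat_mul]
    simp only [← Real.exp_add]
    rw [Real.exp_le_one_iff]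
    push_cast
    nlinarith
  have h10 : Z * (Real.exp (L * Real.exp L / 32)) ^ 2 ≤ Z * s ^ 2 := by
    calc Z * (Real.exp (L * Real.exp L / 32)) ^ 2 ≤ _ :=
          mul_le_mul_of_nonneg_right h8 (sq_nonneg _)
      _ = Z * s ^ 2 * (Real.exp (L / 2) * Real.exp (2 * L + 1) *
            Real.exp (- (L / 8 * Real.exp L)) *
            Real.exp (L + 1) * Real.exp (3 * Real.exp L) * Real.exp (4 * L) *
            (Real.exp (L * Real.exp L / 32)) ^ 2) := by ring
      _ ≤ Z * s ^ 2 * 1 := by gcongr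
      _ = _ := mul_one _
  exact (pow_le_pow_iff_left₀ (Real.exp_pos _).le hs0 two_ne_zero).mp
    (le_of_mul_le_mul_left h10 hZ)

theorem size_lower {K : Type*} [Field K] [CharZero K] {n : ℕ} (hn : ⌈Real.exp 400⌉₊ ≤ n)
    (C : Circ K (Var n n)) (hC : C.Homog) (hv : C.value = IMM K n n) :
    (n : ℝ) ^ (1 / 64 * Real.sqrt n) ≤ C.size := by
  have h1 : Real.exp 400 ≤ n := Nat.ceil_le.mp hn
  have h2 : (0 : ℝ) < n := (Real.exp_pos _).trans_le h1
  have h3 : 400 ≤ Real.log n := (Real.le_log_iff_exp_le h2).mpr h1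
  have h4 : Real.exp (Real.log n / 2) * Real.exp (Real.log n / 2) = n := by
    rw [← Real.exp_add, add_halves, Real.exp_log h2]
  have h5 : Real.sqrt n = Real.exp (Real.log n / 2) := by
    rw [Real.sqrt_eq_iff_mul_self_eq h2.le (Real.exp_pos _).le]
    exact h4.symm
  refine le_trans (le_of_eq ?_) (size_lower_aux (by linarith) h4 C hC hv)
  rw [Real.rpow_def_of_pos h2, h5]
  congr 1
  ring

end Vale.Agent.P346
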