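import Vale.Agent.P346.Upper
import Vale.Agent.P346.LB

namespace Vale.Agent.P346

universe u

theorem minSize_upper (K : Type u) [Field K] {n : ℕ} (hn : 2 ≤ n) :
    (minSize K n : ℝ) ≤ (n : ℝ) ^ (8 * Real.sqrt n) := by
  obtain ⟨C, hC, hv, hs⟩ := exists_circ K hn
  have h1 : minSize K n ≤ C.size := Nat.sInf_le ⟨C, hC, hv, rfl⟩
  have h2 : (minSize K n : ℝ) ≤ (n : ℝ) ^ (Nat.sqrt n + 7) := by exact_mod_cast h1.trans hs
  have h3 : (1 : ℝ) ≤ n := by exact_mod_cast (by omega : 1 ≤ n)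
  refine h2.trans ?_
  rw [← Real.rpow_natCast]
  refine Real.rpow_le_rpow_of_exponent_le h3 ?_
  have h4 : (Nat.sqrt n : ℝ) ≤ Real.sqrt n := Real.nat_sqrt_le_real_sqrt
  have h5 : 1 ≤ Real.sqrt n := Real.one_le_sqrt.mpr h3
  push_cast
  linarith

theorem minSize_lower (K : Type u) [Field K] [CharZero K] {n : ℕ} (hn2 : 2 ≤ n)
    (hn : ⌈Real.exp 400⌉₊ ≤ n) : (n : ℝ) ^ (1 / 64 * Real.sqrt n) ≤ minSize K n := by
  obtain ⟨C, hC, hv, _⟩ := exists_circ K hn2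
  have h : minSize K n ∈
      {m : ℕ | ∃ C : Circ K (Var n n), C.Homog ∧ C.value = IMM K n n ∧ C.size = m} :=
    Nat.sInf_mem ⟨C.size, C, hC, hv, rfl⟩
  obtain ⟨C', hC', hv', hs'⟩ := h
  rw [← hs']
  exact size_lower hn C' hC' hv'

end Vale.Agent.P346
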