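import Vale.Agent.P346.G9
import Vale.Agent.P346.G2
import Vale.Agent.P346.Main

namespace Vale.Agent.P346.Gen

open MvPolynomial Vale.Agent.P346

theorem exp9_lower : (7000 : ℝ) ≤ Real.exp 9 := by
  have h : (2.7 : ℝ) ^ 9 ≤ Real.exp 1 ^ 9 :=
    pow_le_pow_left₀ (by norm_num) (by linarith [Real.exp_one_gt_d9]) 9
  rw [← Real.exp_nat_mul] at h
  norm_num at h ⊢
  linarith

theorem exp9_upper : Real.exp 9 ≤ (20000 : ℝ) := by
  have h : Real.exp 1 ^ 9 ≤ (3 : ℝ) ^ 9 :=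
    pow_le_pow_left₀ (Real.exp_pos _).le (by linarith [Real.exp_one_lt_d9]) 9
  rw [← Real.exp_nat_mul] at h
  norm_num at h ⊢
  linarith

theorem final_num {L r s x Z μ ρ N A : ℝ} (hL : 1000000 ≤ L) (hr : 7000 * L ≤ r) (hZ : 0 < Z)
    (hs : 0 ≤ s) (hx : x ≤ L + 1) (hA : A ≤ L + 1) (hN : N = Real.exp (2 * L + 18))
    (hρ : 1 ≤ ρ * N) (hρ2 : 2 * ρ * N ≤ L * r / 128)
    (h1 : Real.exp (- (2 * ρ * N)) / 2 * (1 / (1 + 2 * Real.exp A)) * Z * ρ * Real.exp (- x) ≤ μ)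
    (h2 : μ ≤ s * (s * (Z * Real.exp (- x / 2) * ((N + 1) * Real.exp (- (L / 8 * r)))))) :
    Real.exp (L * r / 32) ≤ s := by
  have hN0 : 1 ≤ N := by rw [hN]; exact Real.one_le_exp (by linarith)
  have e1 := Real.add_one_le_exp 1
  have e2 := Real.add_one_le_exp 2
  have a1 : Real.exp (- (L * r / 128)) * Real.exp (- 1) ≤ Real.exp (- (2 * ρ * N)) / 2 := by
    have : Real.exp (- 1) ≤ 1 / 2 := by
      rw [Real.exp_neg, inv_le_comm₀ (Real.exp_pos _) (by norm_num)]; linarith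
    rw [div_eq_mul_one_div (Real.exp _)]
    gcongr
  have a2 : Real.exp (- (L + 3)) ≤ 1 / (1 + 2 * Real.exp A) := by
    rw [Real.exp_neg, one_div]
    refine inv_anti₀ (by positivity) ?_
    have b1 : Real.exp A ≤ Real.exp (L + 1) := Real.exp_le_exp.mpr hA
    have b2 : 1 ≤ Real.exp (L + 1) := Real.one_le_exp (by linarith)
    rw [show L + 3 = L + 1 + 2 by ring, Real.exp_add]
    nlinarith
  have a3 : Real.exp (- (2 * L + 18)) ≤ ρ := by
    rw [Real.exp_neg, ← hN, inv_le_iff_one_le_mul₀ (by linarith)]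
    exact hρ
  have a4 : N + 1 ≤ Real.exp (2 * L + 19) := by
    rw [show 2 * L + 19 = 2 * L + 18 + 1 by ring, Real.exp_add, ← hN]
    nlinarith
  have a5 : Real.exp (- (L * r / 128)) * Real.exp (- 1) * Real.exp (- (L + 3)) * Z *
      Real.exp (- (2 * L + 18)) * Real.exp (- x) ≤
      s * (s * (Z * Real.exp (- x / 2) * (Real.exp (2 * L + 19) * Real.exp (- (L / 8 * r))))) := by
    refine le_trans ?_ (h1.trans (h2.trans ?_))
    · gcongr
    · gcongr
  have a6 : Real.exp (L * r / 32) ^ 2 * (Real.exp (- x / 2) * Real.exp (2 * L + 19) *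
      Real.exp (- (L / 8 * r))) ≤ Real.exp (- (L * r / 128)) * Real.exp (- 1) *
      Real.exp (- (L + 3)) * Real.exp (- (2 * L + 18)) * Real.exp (- x) := by
    rw [← Real.exp_nat_mul]
    simp only [← Real.exp_add]
    rw [Real.exp_le_exp]
    push_cast
    nlinarith
  have a7 : Real.exp (L * r / 32) ^ 2 * (Z * (Real.exp (- x / 2) * Real.exp (2 * L + 19) *
      Real.exp (- (L / 8 * r)))) ≤ s ^ 2 * (Z * (Real.exp (- x / 2) * Real.exp (2 * L + 19) *
      Real.exp (- (L / 8 * r)))) := by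
    calc _ = Z * (Real.exp (L * r / 32) ^ 2 * (Real.exp (- x / 2) * Real.exp (2 * L + 19) *
          Real.exp (- (L / 8 * r)))) := by ring
      _ ≤ Z * (Real.exp (- (L * r / 128)) * Real.exp (- 1) *
          Real.exp (- (L + 3)) * Real.exp (- (2 * L + 18)) * Real.exp (- x)) := by gcongr
      _ = _ := by ring
      _ ≤ _ := a5
      _ = _ := by ring
  exact (pow_le_pow_iff_left₀ (Real.exp_pos _).le hs two_ne_zero).mp
    (le_of_mul_le_mul_right a7 (by positivity))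

theorem par_num {L r : ℝ} (hL : 1000000 ≤ L) (hr : r = Real.exp (L + 9)) :
    ∃ ε, 7000 * Real.exp L ≤ r ∧ ε * r = L / 2 ∧ 0 < ε ∧ ε ≤ 1 / 8 ∧ 24 * Real.exp (- L) ≤ ε ∧
      Real.exp (L + ε) ≤ 3 * Real.exp L := by
  have k1 := exp9_lower
  have k2 := exp9_upper
  have hEL := Real.exp_pos L
  have hLr : L + 1 ≤ Real.exp L := Real.add_one_le_exp L
  have hr1 : r = Real.exp L * Real.exp 9 := by rw [hr, Real.exp_add]
  have hr2 : 7000 * Real.exp L ≤ r := by nlinarith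
  have hr3 : r ≤ 20000 * Real.exp L := by nlinarith
  have hr0 : 0 < r := by linarith
  obtain ⟨ε, hε⟩ : ∃ ε, ε = L / (2 * r) := ⟨_, rfl⟩
  have hεr : ε * r = L / 2 := by rw [hε]; field_simp
  have hε0 : 0 < ε := by rw [hε]; positivity
  have hε1 : ε ≤ 1 / 8 := by nlinarith
  have hinv : Real.exp (- L) * Real.exp L = 1 := by rw [← Real.exp_add]; simp
  refine ⟨ε, hr2, hεr, hε0, hε1, ?_, ?_⟩
  · refine le_of_mul_le_mul_right ?_ hEL
    nlinarith
  · have : Real.exp ε ≤ 3 := (Real.exp_le_exp.mpr (by linarith : ε ≤ 1)).trans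
      (by linarith [Real.exp_one_lt_d9])
    rw [Real.exp_add]
    nlinarith

theorem rho_num {L r E : ℝ} {n Q : ℕ} (hL : 1000000 ≤ L) (hE : L + 1 ≤ E) (hr : 7000 * E ≤ r)
    (hn : r * r = n) (hN : (n : ℝ) = Real.exp (2 * L + 18)) (hQ : (Q : ℝ) ≤ 3 * E) (hQ0 : 0 < Q) :
    Q ≤ n ∧ ∃ ρ : ℝ, 0 < ρ ∧ 2 * ρ ≤ 1 ∧ 2 * Real.log (2 * n) ≤ ρ * (n / Q : ℕ) ∧ 1 ≤ ρ * n ∧
      2 * ρ * n ≤ L * r / 128 := by
  have hQn : Q ≤ n := by
    have : (Q : ℝ) ≤ n := by nlinarith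
    exact_mod_cast this
  have hw1 : 1750 * r ≤ (n / Q : ℕ) := by
    have h1 : (n : ℝ) < Q * ((n / Q : ℕ) + 1) := by
      exact_mod_cast Nat.lt_mul_div_succ n hQ0
    have h2 : (0 : ℝ) ≤ (n / Q : ℕ) := Nat.cast_nonneg _
    generalize ((n / Q : ℕ) : ℝ) = w at *
    have h3 : 7000 * E * r ≤ 3 * E * (w + 1) := by nlinarith
    have h4 : 7000 * r ≤ 3 * (w + 1) := by nlinarith
    linarith
  have hw2 : ((n / Q : ℕ) : ℝ) ≤ n := by exact_mod_cast Nat.div_le_self _ _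
  have hn1 : (0 : ℝ) < n := by rw [hN]; exact Real.exp_pos _
  have hl1 : Real.log (2 * n) ≤ 3 * L := by
    rw [Real.log_le_iff_le_exp (by linarith), show 3 * L = L - 18 + (2 * L + 18) by ring,
      Real.exp_add, ← hN]
    have := Real.add_one_le_exp (L - 18)
    gcongr
    linarith
  have hl2 : 1 ≤ Real.log (2 * n) := by
    rw [Real.le_log_iff_exp_le (by linarith), hN]
    have : Real.exp 1 ≤ Real.exp (2 * L + 18) := Real.exp_le_exp.mpr (by linarith)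
    linarith [Real.exp_pos (2 * L + 18)]
  generalize ((n / Q : ℕ) : ℝ) = w at *
  generalize Real.log (2 * n) = l at *
  have hw0 : 0 < w := by linarith
  obtain ⟨ρ, hρ⟩ : ∃ ρ, ρ = 2 * l / w := ⟨_, rfl⟩
  have hρw : ρ * w = 2 * l := by rw [hρ]; field_simp
  have hρ0 : 0 < ρ := by rw [hρ]; positivity
  have hρr : 1750 * (ρ * r) ≤ 6 * L := by nlinarith
  refine ⟨hQn, ρ, hρ0, by nlinarith, hρw.ge, by nlinarith, ?_⟩
  rw [← hn]
  nlinarith

theorem size_lower_aux {K : Type*} [Field K] {L : ℝ} (hL : 1000000 ≤ L) {n : ℕ}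
    (hn : Real.exp (L + 9) * Real.exp (L + 9) = n) (C : Circ K (Var n n)) (hC : C.Homog)
    (hv : C.value = IMM K n n) : Real.exp (L * Real.exp (L + 9) / 32) ≤ C.size := by
  have hLr : L + 1 ≤ Real.exp L := Real.add_one_le_exp L
  have hN : (n : ℝ) = Real.exp (2 * L + 18) := by rw [← hn, ← Real.exp_add]; congr 1; ring
  obtain ⟨r, hr⟩ : ∃ r, r = Real.exp (L + 9) := ⟨_, rfl⟩
  rw [← hr] at hn ⊢
  obtain ⟨ε, hr2, hεr, hε0, hε1, hε2, hEA⟩ := par_num hL hr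
  have hn0 : 0 < n := by
    have : (0 : ℝ) < n := by rw [hN]; exact Real.exp_pos _
    exact_mod_cast this
  obtain ⟨A, hA⟩ : ∃ A, A = L + ε := ⟨_, rfl⟩
  obtain ⟨B, hB⟩ : ∃ B, B = L - ε := ⟨_, rfl⟩
  rw [← hA] at hEA
  have hB0 : 0 ≤ B := by linarith
  have hBA : B < A := by linarith
  have hAB : A - B ≤ 1 / 4 := by linarith
  have hQ : (⌊Real.exp A⌋₊ : ℝ) ≤ 3 * Real.exp L := (Nat.floor_le (Real.exp_pos _).le).trans hEA
  have hQ0 : 0 < ⌊Real.exp A⌋₊ := Nat.floor_pos.mpr (Real.one_le_exp (by linarith))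
  obtain ⟨hQn, ρ, r0, r1, r2, r3, r4⟩ := rho_num hL hLr hr2 hn hN hQ hQ0
  obtain ⟨hZ, h2⟩ := mu_IMM_all K hB0 hBA hAB hQn hn0 ρ r0.le r1 r2
  have hne : IMM K n n ≠ 0 := by
    intro h
    rw [h, mu_zero] at h2
    refine absurd h2 (not_le.mpr ?_)
    exact mul_pos (mul_pos (mul_pos (by positivity) hZ) r0) (Real.exp_pos _)
  have hd : ∀ t ∈ C.in5, C.deg4 t = n := fun t ht =>
    IsHomogeneous.inj_right (hv ▸ Circ.homog5 hC ht) (IMM_homog K n n) hne
  have h3 := mu_value_le (par hB0 hBA hAB hQn).enc (by linarith) hε2 (by linarith) hεr hn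
    (tauI A B n) (wtI_sum A B n) hC hd A B hA hB
  rw [hv, ell_tauI] at h3
  exact final_num hL (by linarith) hZ (Nat.cast_nonneg _)
    ((pre_bounds (hB0.trans hBA.le) hB0 n).2.trans (by linarith)) (by linarith) hN r3 r4 h2 h3

theorem size_lower {K : Type*} [Field K] {n : ℕ} (hn : ⌈Real.exp 2000018⌉₊ ≤ n)
    (C : Circ K (Var n n)) (hC : C.Homog) (hv : C.value = IMM K n n) :
    (n : ℝ) ^ (1 / 96 * Real.sqrt n) ≤ C.size := by
  have h1 : Real.exp 2000018 ≤ n := Nat.ceil_le.mp hn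
  have h2 : (0 : ℝ) < n := (Real.exp_pos _).trans_le h1
  have h3 : 2000018 ≤ Real.log n := (Real.le_log_iff_exp_le h2).mpr h1
  have h4 : Real.exp (Real.log n / 2 - 9 + 9) * Real.exp (Real.log n / 2 - 9 + 9) = n := by
    rw [← Real.exp_add, sub_add_cancel, add_halves, Real.exp_log h2]
  have h5 : Real.sqrt n = Real.exp (Real.log n / 2 - 9 + 9) := by
    rw [Real.sqrt_eq_iff_mul_self_eq h2.le (Real.exp_pos _).le]
    exact h4.symm
  refine le_trans ?_ (size_lower_aux (by linarith) h4 C hC hv)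
  rw [Real.rpow_def_of_pos h2, h5, Real.exp_le_exp]
  have := Real.exp_pos (Real.log n / 2 - 9 + 9)
  nlinarith

universe u

theorem minSize_lower (K : Type u) [Field K] {n : ℕ} (hn2 : 2 ≤ n)
    (hn : ⌈Real.exp 2000018⌉₊ ≤ n) : (n : ℝ) ^ (1 / 96 * Real.sqrt n) ≤ minSize K n := by
  obtain ⟨C, hC, hv, _⟩ := exists_circ K hn2
  have h : minSize K n ∈
      {m : ℕ | ∃ C : Circ K (Var n n), C.Homog ∧ C.value = IMM K n n ∧ C.size = m} :=
    Nat.sInf_mem ⟨C.size, C, hC, hv, rfl⟩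
  obtain ⟨C', hC', hv', hs'⟩ := h
  rw [← hs']
  exact size_lower hn C' hC' hv'

end Vale.Agent.P346.Gen
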