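import Vale.Agent.P346.G1

namespace Vale.Agent.P346.Gen

open MvPolynomial Matrix Vale.Agent.P346

variable {K : Type*} [Field K]

theorem rank_tri {J α : Type} [Fintype J] [DecidableEq J] [LinearOrder α] (N : Matrix J J K)
    (Ω : J → α) (hd : ∀ a, N a a ≠ 0) (ht : ∀ a b, N a b ≠ 0 → a = b ∨ Ω a < Ω b) :
    N.rank = Fintype.card J := by
  classical
  refine Matrix.rank_of_det_ne_zero ?_
  intro h
  obtain ⟨v, hv, h0⟩ := Matrix.exists_mulVec_eq_zero_iff.mpr h
  have hne : (Finset.univ.filter fun a => v a ≠ 0).Nonempty := by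
    obtain ⟨a, ha⟩ := Function.ne_iff.mp hv
    exact ⟨a, by simpa using ha⟩
  obtain ⟨a, ha, hmax⟩ := Finset.exists_max_image _ Ω hne
  have h1 := congrFun h0 a
  rw [Matrix.mulVec, dotProduct, Finset.sum_eq_single a] at h1
  · exact mul_ne_zero (hd a) (Finset.mem_filter.mp ha).2 h1
  · intro b _ hb
    by_contra h2
    rcases ht a b (left_ne_zero_of_mul h2) with h3 | h3
    · exact hb h3.symm
    · exact absurd (hmax b (by simpa using right_ne_zero_of_mul h2)) (not_le.mpr h3)
  · simp

variable {V I : Type} [Fintype I] [DecidableEq I] (E : Enc V I) (wt : V → ℕ × ℕ) (A B : ℝ)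
  (τ : ℕ × ℕ)

theorem mu_ge_tri {α : Type} [LinearOrder α] (f : MvPolynomial V K) (surv : I → Prop)
    [DecidablePred surv] (sel : I → I) (Ω : I → α)
    (h1 : ∀ T, surv T → key E wt T = key E wt (sel T) + τ)
    (h2 : ∀ T, surv T → MM E f T (sel T) ≠ 0)
    (h3 : ∀ T T0, surv T0 → MM E f T (sel T0) ≠ 0 → T = T0 ∨ Ω T < Ω T0) :
    (∑ T, Real.exp (ell A B (key E wt T)) * (if surv T then 1 else 0)) *
      Real.exp (- ell A B τ) ≤ mu E wt A B τ f := by
  have h4 : ∀ κ, ∑ T, (if surv T ∧ key E wt T = κ + τ then (1 : ℝ) else 0) ≤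
      ((DD E K wt (κ + τ) * MM E f * DD E K wt κ).rank : ℝ) := by
    intro κ
    have hk : ∀ T : {T // surv T ∧ key E wt T = κ + τ}, key E wt (sel T.1) = κ := fun T =>
      add_right_cancel ((h1 T.1 T.2.1).symm.trans T.2.2)
    have he : ∀ a b : {T // surv T ∧ key E wt T = κ + τ},
        ((DD E K wt (κ + τ) * MM E f * DD E K wt κ).submatrix
          (fun T : {T // surv T ∧ key E wt T = κ + τ} => T.1) (fun T => sel T.1)) a b =
          MM E f a.1 (sel b.1) := by
      intro a b
      simp [DD, a.2.2, hk b]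
    have h5 := rank_tri ((DD E K wt (κ + τ) * MM E f * DD E K wt κ).submatrix
      (fun T : {T // surv T ∧ key E wt T = κ + τ} => T.1) (fun T => sel T.1)) (fun T => Ω T.1)
      (fun a => by rw [he]; exact h2 a.1 a.2.1)
      (fun a b hab => by
        rw [he] at hab
        rcases h3 a.1 b.1 b.2.1 hab with h | h
        · exact Or.inl (Subtype.ext h)
        · exact Or.inr h)
    have h6 := Matrix.rank_submatrix_le (DD E K wt (κ + τ) * MM E f * DD E K wt κ)
      (fun T : {T // surv T ∧ key E wt T = κ + τ} => T.1)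
      (fun T : {T // surv T ∧ key E wt T = κ + τ} => sel T.1)
    rw [h5, Fintype.card_subtype] at h6
    rw [Finset.sum_boole]
    exact_mod_cast h6
  refine le_trans (le_of_eq ?_) (Finset.sum_le_sum fun κ _ =>
    mul_le_mul_of_nonneg_left (h4 κ) (Real.exp_pos _).le)
  simp only [Finset.mul_sum, Finset.sum_mul]
  rw [Finset.sum_comm]
  refine Finset.sum_congr rfl fun T _ => ?_
  by_cases hT : surv T
  · rw [Finset.sum_eq_single (key E wt (sel T))]
    · rw [if_pos hT, if_pos ⟨hT, h1 T hT⟩, h1 T hT, ell_add, mul_one, mul_one, ← Real.exp_add]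
      simp
    · intro b _ hb
      rw [if_neg, mul_zero]
      rintro ⟨_, h⟩
      exact hb (add_right_cancel (h.symm.trans (h1 T hT)))
    · intro h
      exact absurd (Finset.mem_image_of_mem _ (Finset.mem_univ _)) h
  · simp [hT]

end Vale.Agent.P346.Gen
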