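import Mathlib

namespace Vale.Agent.P346.Gen

def nxt (r : ℕ → Bool) : ℕ → ℕ → ℕ
  | 0, c => c
  | k + 1, c => if r c then nxt r k (c + 1) else c

theorem nxt_congr {r r' : ℕ → Bool} (k c : ℕ) (h : ∀ c', c ≤ c' → r c' = r' c') :
    nxt r k c = nxt r' k c := by
  induction k generalizing c with
  | zero => rfl
  | succ k ih =>
    simp only [nxt, h c le_rfl]
    rw [ih (c + 1) fun c' hc => h c' (by omega)]

theorem nxt_le_add (r : ℕ → Bool) (k c : ℕ) : nxt r k c ≤ c + k := by
  induction k generalizing c with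
  | zero => simp [nxt]
  | succ k ih =>
    simp only [nxt]
    split_ifs
    · have := ih (c + 1); omega
    · omega

theorem nxt_used {r : ℕ → Bool} {k c c' : ℕ} (h1 : c ≤ c') (h2 : c' < nxt r k c) :
    r c' = true := by
  induction k generalizing c with
  | zero => simp only [nxt] at h2; omega
  | succ k ih =>
    simp only [nxt] at h2
    split_ifs at h2 with h
    · rcases Nat.eq_or_lt_of_le h1 with rfl | h3
      · exact h
      · exact ih h3 h2
    · omega

def pos (w : ℕ) (l : ℕ → ℕ → Bool) : ℕ → ℕ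
  | 0 => 0
  | j + 1 => nxt (l j) (w - pos w l j) (pos w l j)

theorem pos_le (w : ℕ) (l : ℕ → ℕ → Bool) (j : ℕ) : pos w l j ≤ w := by
  induction j with
  | zero => exact Nat.zero_le _
  | succ j ih =>
    have := nxt_le_add (l j) (w - pos w l j) (pos w l j)
    simp only [pos]
    omega

theorem pos_congr (w : ℕ) {l l' : ℕ → ℕ → Bool} (j : ℕ) (h : ∀ j', j' < j → l j' = l' j') :
    pos w l j = pos w l' j := by
  induction j with
  | zero => rfl
  | succ j ih =>
    simp only [pos]
    rw [ih fun j' hj => h j' (by omega), h j (by omega)]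

theorem exists_parent (w : ℕ) (l : ℕ → ℕ → Bool) (m a : ℕ) (h : a < pos w l m) :
    ∃ j, j < m ∧ pos w l j ≤ a ∧ a < pos w l (j + 1) := by
  induction m with
  | zero => simp [pos] at h
  | succ m ih =>
    by_cases h1 : a < pos w l m
    · obtain ⟨j, h2, h3⟩ := ih h1
      exact ⟨j, by omega, h3⟩
    · exact ⟨m, by omega, by omega, h⟩

def Uf (w : ℕ) (b : ℕ → ℕ → ℕ → Bool) : ℕ → ℕ → ℕ → Bool
  | _, 0, m => decide (1 ≤ m)
  | i, k + 1, m => Uf w b (i + 1) k (pos w (b i) m)

theorem Uf_congr (w : ℕ) {b b' : ℕ → ℕ → ℕ → Bool} (k i m : ℕ)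
    (h : ∀ i', i ≤ i' → b i' = b' i') : Uf w b i k m = Uf w b' i k m := by
  induction k generalizing i m with
  | zero => rfl
  | succ k ih =>
    simp only [Uf]
    rw [h i le_rfl, ih (i + 1) _ fun i' hi => h i' (by omega)]

theorem Uf_path (w : ℕ) (b : ℕ → ℕ → ℕ → Bool) (k i m : ℕ) (h : Uf w b i k m = true) :
    ∃ a : ℕ → ℕ, a i < m ∧ a (i + k) = 0 ∧ ∀ j, i ≤ j → j < i + k →
      pos w (b j) (a j) ≤ a (j + 1) ∧ a (j + 1) < pos w (b j) (a j + 1) := by
  induction k generalizing i m with
  | zero =>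
    simp only [Uf, decide_eq_true_eq] at h
    exact ⟨fun _ => 0, h, rfl, fun j h1 h2 => by omega⟩
  | succ k ih =>
    simp only [Uf] at h
    obtain ⟨a, h1, h2, h3⟩ := ih _ _ h
    obtain ⟨j, h4, h5, h6⟩ := exists_parent w (b i) m _ h1
    refine ⟨Function.update a i j, by simpa using h4, ?_, fun j' h7 h8 => ?_⟩
    · rw [Function.update_of_ne (by omega), ← h2]
      congr 1
      omega
    · rcases Nat.eq_or_lt_of_le h7 with rfl | h9
      · rw [Function.update_self, Function.update_of_ne (by omega)]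
        exact ⟨h5, h6⟩
      · rw [Function.update_of_ne (by omega), Function.update_of_ne (by omega)]
        exact h3 j' (by omega) (by omega)

section Cond

variable {G : Type} [Fintype G] [DecidableEq G] {O : G → Type} [∀ g, Fintype (O g)]
  (ω : ∀ g, O g → ℝ)

noncomputable def SW (F : (∀ g, O g) → ℝ) : ℝ := ∑ t, (∏ g, ω g (t g)) * F t

def Ind (F : (∀ g, O g) → ℝ) (g : G) : Prop := ∀ t o, F (Function.update t g o) = F t

theorem SW_cond (g : G) (φ : O g → ℝ) (H : (∀ g, O g) → ℝ) (hH : Ind H g) :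
    SW ω (fun t => φ (t g) * H t) * ∑ o, ω g o = (∑ o, ω g o * φ o) * SW ω H := by
  have key : ∀ (t : ∀ g, O g) (o : O g),
      (∏ g', ω g' (Function.update t g o g')) * ω g (t g) = (∏ g', ω g' (t g')) * ω g o := by
    intro t o
    rw [← Finset.mul_prod_erase _ _ (Finset.mem_univ g),
      ← Finset.mul_prod_erase _ (fun g' => ω g' (t g')) (Finset.mem_univ g), Function.update_self]
    have : ∏ x ∈ Finset.univ.erase g, ω x (Function.update t g o x) =
        ∏ x ∈ Finset.univ.erase g, ω x (t x) := Finset.prod_congr rfl fun x hx => by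
      rw [Function.update_of_ne (Finset.mem_erase.mp hx).1]
    rw [this]
    ring
  unfold SW
  rw [Finset.sum_mul_sum, Finset.sum_mul_sum, Finset.sum_comm (s := (Finset.univ : Finset (O g))),
    ← Finset.sum_product', ← Finset.sum_product']
  refine Finset.sum_nbij' (fun p => (Function.update p.1 g p.2, p.1 g))
    (fun p => (Function.update p.1 g p.2, p.1 g)) (by simp) (by simp) (by simp) (by simp) ?_
  rintro ⟨t, o⟩ _
  simp only [hH t o]
  linear_combination (- φ (t g) * H t) * key t o

theorem SW_ite (used : ∀ g, O g → Bool) (g : G) (γ : ℝ)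
    (h0 : 0 < ∑ o, ω g o * (if used g o then 0 else 1))
    (h1 : ∑ o, ω g o * (if used g o then 1 else 0) =
      γ * ∑ o, ω g o * (if used g o then 0 else 1))
    (F1 F2 : (∀ g, O g) → ℝ) (i1 : Ind F1 g) (i2 : Ind F2 g) :
    SW ω (fun t => if used g (t g) then F1 t else F2 t) * (1 + γ) = γ * SW ω F1 + SW ω F2 := by
  have e1 := SW_cond ω g (fun o => if used g o then 1 else 0) F1 i1
  have e2 := SW_cond ω g (fun o => if used g o then 0 else 1) F2 i2
  have e3 : ∑ o, ω g o = ∑ o, ω g o * (if used g o then 1 else 0) +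
      ∑ o, ω g o * (if used g o then 0 else 1) := by
    rw [← Finset.sum_add_distrib]
    refine Finset.sum_congr rfl fun o _ => ?_
    split_ifs <;> simp
  have e4 : SW ω (fun t => if used g (t g) then F1 t else F2 t) =
      SW ω (fun t => (if used g (t g) then 1 else 0) * F1 t) +
      SW ω (fun t => (if used g (t g) then 0 else 1) * F2 t) := by
    unfold SW
    rw [← Finset.sum_add_distrib]
    refine Finset.sum_congr rfl fun t _ => ?_
    by_cases h : used g (t g) = true <;> simp [h]
  rw [e3, h1] at e1 e2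
  rw [e4]
  refine mul_right_cancel₀ h0.ne' ?_
  linear_combination e1 + e2

end Cond

end Vale.Agent.P346.Gen
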