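import Vale.Agent.P346.G4

namespace Vale.Agent.P346.Gen

abbrev Cell (n w : ℕ) : Type := Fin n × Fin w × Fin w

variable {n w : ℕ} {O : Cell n w → Type} (used : ∀ g, O g → Bool)

def uN (t : ∀ g, O g) (i j c : ℕ) : Bool :=
  if h : i < n ∧ j < w ∧ c < w then
    used (⟨i, h.1⟩, ⟨j, h.2.1⟩, ⟨c, h.2.2⟩) (t (⟨i, h.1⟩, ⟨j, h.2.1⟩, ⟨c, h.2.2⟩)) else false

theorem uN_cell (t : ∀ g, O g) (g : Cell n w) : uN used t g.1 g.2.1 g.2.2 = used g (t g) := by
  simp [uN]

theorem uN_update (t : ∀ g, O g) (g : Cell n w) (o : O g) (i j c : ℕ)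
    (h : ¬ (i = g.1 ∧ j = g.2.1 ∧ c = g.2.2)) :
    uN used (Function.update t g o) i j c = uN used t i j c := by
  unfold uN
  split_ifs with h1
  · rw [Function.update_of_ne]
    rintro rfl
    exact h ⟨rfl, rfl, rfl⟩
  · rfl

noncomputable def BB (w : ℕ) (x : ℝ) (c : ℕ) (Φ : ℝ) : ℝ :=
  if c < w then (1 - x ^ w) * (1 - x ^ c * Φ) else 1 - x ^ w

variable [∀ g, Fintype (O g)] (ω : ∀ g, O g → ℝ) (γ : ℕ → ℝ)
  (h0 : ∀ g, 0 < ∑ o, ω g o * (if used g o then 0 else 1))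
  (h1 : ∀ g, ∑ o, ω g o * (if used g o then 1 else 0) =
      γ g.1 * ∑ o, ω g o * (if used g o then 0 else 1))
  (hγ : ∀ i, 0 ≤ γ i)

include h0 h1 hγ in
theorem row_bound (i : Fin n) (j : Fin w) {x φ Φ D : ℝ} (hx0 : 0 ≤ x) (hx1 : x ≤ 1)
    (hφ0 : 0 ≤ φ) (hφ : φ * (1 + γ i - γ i * x) = 1) (hΦ : 0 ≤ Φ) (hD : 0 ≤ D)
    (H : ℕ → (∀ g, O g) → ℝ) (hI : ∀ c c', Ind (H c) (i, j, c'))
    (hH : ∀ c, c ≤ w → D * BB w x c Φ ≤ SW ω (H c)) (k c : ℕ) (hk : c + k = w) :
    D * BB w x c (Φ * φ) ≤ SW ω (fun t => H (nxt (uN used t i j) k c) t) := by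
  induction k generalizing c with
  | zero =>
    have := hH c (by omega)
    rw [BB, if_neg (by omega)] at this ⊢
    exact this
  | succ k ih =>
    have hc : c < w := by omega
    have e1 : (fun t => H (nxt (uN used t i j) (k + 1) c) t) =
        fun t => if used (i, j, ⟨c, hc⟩) (t (i, j, ⟨c, hc⟩)) then
          H (nxt (uN used t i j) k (c + 1)) t else H c t := by
      funext t
      rw [nxt, ← uN_cell used t (i, j, ⟨c, hc⟩)]
      split_ifs <;> rfl
    have e2 := SW_ite ω used (i, j, ⟨c, hc⟩) (γ i) (h0 _) (h1 _)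
      (fun t => H (nxt (uN used t i j) k (c + 1)) t) (H c) (fun t o => by
        simp only
        rw [hI _ _ t o, nxt_congr k (c + 1) fun c' hc' =>
          uN_update used t (i, j, ⟨c, hc⟩) o i j c' (by simp only; omega)]) (hI c _)
    have e3 := ih (c + 1) (by omega)
    have e4 := hH c hc.le
    have hX : 0 ≤ 1 - x ^ w := sub_nonneg.mpr (pow_le_one₀ hx0 hx1)
    have e5 : (1 - x ^ w) * (1 - x ^ (c + 1) * (Φ * φ)) ≤ BB w x (c + 1) (Φ * φ) := by
      unfold BB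
      split_ifs
      · exact le_rfl
      · have : 0 ≤ x ^ (c + 1) * (Φ * φ) := by positivity
        nlinarith
    have e6 := (mul_le_mul_of_nonneg_left e5 hD).trans e3
    rw [BB, if_pos hc] at e4 ⊢
    rw [e1]
    have hg := hγ i
    refine le_of_mul_le_mul_right ?_ (by linarith : 0 < 1 + γ i)
    rw [e2]
    have e7 := mul_le_mul_of_nonneg_left e6 hg
    have e8 : D * ((1 - x ^ w) * (1 - x ^ c * (Φ * φ))) * (1 + γ i) =
        γ i * (D * ((1 - x ^ w) * (1 - x ^ (c + 1) * (Φ * φ)))) +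
          D * ((1 - x ^ w) * (1 - x ^ c * Φ)) := by
      linear_combination (- D * (1 - x ^ w) * x ^ c * Φ) * hφ
    linarith

include h0 h1 hγ in
theorem layer_bound (i : Fin n) {x φ D : ℝ} (hx0 : 0 ≤ x) (hx1 : x ≤ 1)
    (hφ0 : 0 ≤ φ) (hφ : φ * (1 + γ i - γ i * x) = 1) (hD : 0 ≤ D) (m : ℕ) (hm : m ≤ w) :
    ∀ (Φ : ℝ) (H : ℕ → (∀ g, O g) → ℝ), 0 ≤ Φ →
      (∀ c (j c' : Fin w), (j : ℕ) < m → Ind (H c) (i, j, c')) →
      (∀ c, c ≤ w → D * BB w x c Φ ≤ SW ω (H c)) →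
      D * BB w x 0 (Φ * φ ^ m) ≤ SW ω (fun t => H (pos w (uN used t i) m) t) := by
  induction m with
  | zero =>
    intro Φ H _ _ hH
    simpa [pos] using hH 0 (Nat.zero_le _)
  | succ m ih =>
    intro Φ H hΦ hI hH
    have hm' : m < w := by omega
    have := ih hm'.le (Φ * φ) (fun c t => H (nxt (uN used t i m) (w - c) c) t) (by positivity)
      (fun c j c' hj t o => by
        simp only
        rw [hI _ j c' (by omega) t o, nxt_congr (w - c) c fun c'' _ =>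
          uN_update used t (i, j, c') o i m c'' (by simp only; omega)])
      (fun c hc => row_bound used ω γ h0 h1 hγ i ⟨m, hm'⟩ hx0 hx1 hφ0 hφ hΦ hD H
        (fun c c' => hI c ⟨m, hm'⟩ c' (by simp)) hH (w - c) c (by omega))
    rw [show Φ * φ ^ (m + 1) = Φ * φ * φ ^ m by ring]
    exact this

theorem conc_pow {s s' κ : ℝ} (hs0 : 0 ≤ s) (hs1 : s ≤ 1) (hκ0 : 0 ≤ κ) (hκ1 : κ ≤ 1)
    (h : κ * s ≤ s') (h' : s' ≤ 1) (m : ℕ) : κ * (1 - (1 - s) ^ m) ≤ 1 - (1 - s') ^ m := by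
  have h1 : (1 - s') ^ m ≤ (1 - κ * s) ^ m := pow_le_pow_left₀ (by linarith) (by linarith) m
  have h2 := (convexOn_pow (𝕜 := ℝ) m).2 (x := 1 - s) (y := 1) (by simp; linarith) (by simp)
    hκ0 (sub_nonneg.mpr hκ1) (by ring)
  simp only [smul_eq_mul, one_pow, mul_one] at h2
  rw [show κ * (1 - s) + (1 - κ) = 1 - κ * s by ring] at h2
  linarith

include h0 h1 hγ in
theorem surv_bound (hω : ∀ g o, 0 ≤ ω g o) (hw : 0 < w) (s η : ℕ → ℝ)
    (hs : ∀ i, 0 ≤ s i ∧ s i ≤ 1) (hη0 : ∀ i, 0 ≤ η i)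
    (hη : ∀ i, i < n → ∃ κ, 0 ≤ κ ∧ κ ≤ 1 ∧ κ * s i * (1 + γ i * s (i + 1)) ≤ γ i * s (i + 1) ∧
      η i ≤ κ * (1 - (1 - s (i + 1)) ^ w)) (k i m : ℕ) (hk : i + k = n) (hm : m ≤ w) :
    (∏ j ∈ Finset.range k, η (i + j)) * SW ω (fun _ => 1) * (1 - (1 - s i) ^ m) ≤
      SW ω (fun t => if Uf w (uN used t) i k m then 1 else 0) := by
  have hZ : 0 ≤ SW ω (fun _ => 1) :=
    Finset.sum_nonneg fun t _ => mul_nonneg (Finset.prod_nonneg fun g _ => hω g _) zero_le_one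
  induction k generalizing i m with
  | zero =>
    rcases Nat.eq_zero_or_pos m with rfl | hm0
    · simp [Uf, SW]
    · have h2 : 0 ≤ (1 - s i) ^ m := pow_nonneg (by linarith [(hs i).2]) m
      have h3 : (fun t => if Uf w (uN used t) i 0 m then (1 : ℝ) else 0) = fun _ => 1 := by
        funext t
        simp [Uf, Nat.succ_le_iff.mpr hm0]
      rw [h3]
      simp only [Finset.range_zero, Finset.prod_empty, one_mul]
      nlinarith
  | succ k ih =>
    have hi : i < n := by omega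
    obtain ⟨κ, k0, k1, k2, k3⟩ := hη i hi
    have hg := hγ i
    obtain ⟨s0, s1⟩ := hs (i + 1)
    have hden : 0 < 1 + γ i * s (i + 1) := by positivity
    set D := (∏ j ∈ Finset.range k, η (i + 1 + j)) * SW ω (fun _ => 1) with hDdef
    have hD : 0 ≤ D := mul_nonneg (Finset.prod_nonneg fun j _ => hη0 _) hZ
    have hx0 : 0 ≤ 1 - s (i + 1) := by linarith
    have hx1 : 1 - s (i + 1) ≤ 1 := by linarith
    have hX : 0 ≤ 1 - (1 - s (i + 1)) ^ w := sub_nonneg.mpr (pow_le_one₀ hx0 hx1)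
    have e1 := layer_bound used ω γ h0 h1 hγ ⟨i, hi⟩ (x := 1 - s (i + 1))
      (φ := 1 / (1 + γ i * s (i + 1))) hx0 hx1 (by positivity)
      (by simp only; field_simp; ring) hD m hm 1
      (fun c t => if Uf w (uN used t) (i + 1) k c then 1 else 0) zero_le_one
      (fun c j c' _ t o => by
        simp only
        rw [Uf_congr w k (i + 1) c fun i' hi' => funext fun a => funext fun b =>
          uN_update used t (⟨i, hi⟩, j, c') o i' a b (by simp only; omega)])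
      (fun c hc => by
        refine le_trans (mul_le_mul_of_nonneg_left ?_ hD) (ih (i + 1) c (by omega) hc)
        have h2 : (1 - s (i + 1)) ^ w ≤ (1 - s (i + 1)) ^ c := pow_le_pow_of_le_one hx0 hx1 hc
        have h3 : (1 - s (i + 1)) ^ c ≤ 1 := pow_le_one₀ hx0 hx1
        have h4 : 0 ≤ (1 - s (i + 1)) ^ w := by positivity
        unfold BB
        split_ifs with h
        · nlinarith
        · have : c = w := by omega
          rw [this])
    refine le_trans ?_ e1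
    rw [BB, if_pos hw, Finset.prod_range_succ']
    have e2 : ∏ j ∈ Finset.range k, η (i + (j + 1)) = ∏ j ∈ Finset.range k, η (i + 1 + j) :=
      Finset.prod_congr rfl fun j _ => by congr 1; omega
    have e3 : 1 / (1 + γ i * s (i + 1)) = 1 - γ i * s (i + 1) / (1 + γ i * s (i + 1)) := by
      field_simp; ring
    have e4 := conc_pow (hs i).1 (hs i).2 k0 k1 ((le_div_iff₀ hden).mpr k2)
      ((div_le_one hden).mpr (by linarith)) m
    have e5 : 0 ≤ 1 - (1 - s i) ^ m :=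
      sub_nonneg.mpr (pow_le_one₀ (by linarith [(hs i).2]) (by linarith [(hs i).1]))
    rw [e2, add_zero, pow_zero, one_mul, one_mul, e3]
    calc _ = D * (η i * (1 - (1 - s i) ^ m)) := by rw [hDdef]; ring
      _ ≤ D * (κ * (1 - (1 - s (i + 1)) ^ w) * (1 - (1 - s i) ^ m)) := by gcongr
      _ = D * ((1 - (1 - s (i + 1)) ^ w) * (κ * (1 - (1 - s i) ^ m))) := by ring
      _ ≤ _ := by gcongr

end Vale.Agent.P346.Gen
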