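import Vale.Agent.P346.G5
import Vale.Agent.P346.G3
import Vale.Agent.P346.Lower3

namespace Vale.Agent.P346.Gen

open Vale.Agent.P346

structure Par (n : ℕ) where
  w : ℕ
  Q : ℕ
  σ : ℕ → ℕ
  y : ℕ → Bool
  hw : 0 < w
  hwQ : w * Q ≤ n
  hσQ : ∀ i, σ i ≤ Q
  hσ1 : ∀ i, 0 < σ i
  h0 : σ 0 = 1
  hn : σ n = 1
  alt : ∀ i, y i = y (i + 1) → σ (i + 1) = 1

def ind {α : Type} [DecidableEq α] (y : Bool) (o : Option α) (s : α) : ℕ :=
  if y then (if o = some s then 0 else 1) else (if o = some s then 1 else 0)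

theorem ind_le {α : Type} [DecidableEq α] (y : Bool) (o : Option α) (s : α) : ind y o s ≤ 1 := by
  unfold ind; split_ifs <;> omega

theorem ind_inj {α : Type} [DecidableEq α] {y : Bool} {o o' : Option α}
    (h : ∀ s, ind y o s = ind y o' s) : o = o' := by
  ext s
  have := h s
  unfold ind at this
  cases y <;> simp only [Bool.false_eq_true, if_true, if_false] at this <;> split_ifs at this <;>
    simp_all

theorem ind_conv {α : Type} [DecidableEq α] {y : Bool} {o o' : Option α} (m : α → ℕ)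
    (h1 : ∀ s, ind y o s ≤ m s) (h2 : ∀ s, m s ≤ ind y o' s) : ∃ u, ∀ s, m s = ind y u s := by
  cases y
  · by_cases h : ∃ s, m s ≠ 0
    · obtain ⟨s, hs⟩ := h
      have h3 : o' = some s := by
        by_contra h4
        have := h2 s
        simp [ind, h4] at this
        exact hs this
      refine ⟨o', fun s' => le_antisymm (h2 s') ?_⟩
      by_cases h5 : s' = s
      · subst h5; have := ind_le false o' s'; omega
      · have : ¬ s = s' := fun h => h5 h.symm
        simp [ind, h3, this]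
    · push Not at h
      exact ⟨none, fun s => by simp [ind, h s]⟩
  · by_cases h : ∃ s, m s ≠ 1
    · obtain ⟨s, hs⟩ := h
      have h3 : o = some s := by
        by_contra h4
        have h5 := h1 s
        have h6 := (h2 s).trans (ind_le _ _ _)
        simp [ind, h4] at h5
        omega
      refine ⟨o, fun s' => le_antisymm ?_ (h1 s')⟩
      have h6 := (h2 s').trans (ind_le _ _ _)
      by_cases h5 : s' = s
      · subst h5; omega
      · have : ¬ s = s' := fun h => h5 h.symm
        simpa [ind, h3, this] using h6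
    · push Not at h
      exact ⟨none, fun s => by simp [ind, h s]⟩

namespace Par

variable {n : ℕ} (P : Par n)

abbrev Sym (i : ℕ) : Type := Fin (P.σ i) × Fin (P.σ (i + 1))

abbrev Opt (g : Cell n P.w) : Type := Option (P.Sym g.1)

abbrev Idx : Type := ∀ g : Cell n P.w, P.Opt g

abbrev Dv : Type := Σ g : Cell n P.w, P.Sym g.1

def vtx (a : Fin P.w) {k : ℕ} (s : Fin (P.σ k)) : Fin n :=
  ⟨a * P.Q + s, by
    have h1 := P.hwQ
    have h2 := P.hσQ k
    have h3 : (a + 1) * P.Q ≤ P.w * P.Q := Nat.mul_le_mul_right _ a.2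
    have h4 := s.2
    rw [add_mul] at h3
    omega⟩

theorem vtx_val (a : Fin P.w) {k : ℕ} (s : Fin (P.σ k)) : (P.vtx a s).val = a * P.Q + s := rfl

theorem vtx_div (a : Fin P.w) {k : ℕ} (s : Fin (P.σ k)) : (P.vtx a s).val / P.Q = a := by
  have h : (s : ℕ) < P.Q := s.2.trans_le (P.hσQ k)
  rw [vtx_val, mul_comm, Nat.mul_add_div (by omega), Nat.div_eq_of_lt h, add_zero]

theorem vtx_inj {a b : Fin P.w} {k : ℕ} {s t : Fin (P.σ k)} (h : P.vtx a s = P.vtx b t) :
    a = b ∧ s = t := by
  have h1 : a = b := Fin.ext (by rw [← P.vtx_div a s, h, P.vtx_div])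
  subst h1
  have h2 := congrArg Fin.val h
  simp only [vtx_val] at h2
  exact ⟨rfl, Fin.ext (by omega)⟩

def var (d : P.Dv) : Var n n := (d.1.1, P.vtx d.1.2.1 d.2.1, P.vtx d.1.2.2 d.2.2)

theorem var_inj : Function.Injective P.var := by
  rintro ⟨⟨i, a, a'⟩, s, s'⟩ ⟨⟨j, b, b'⟩, t, t'⟩ h
  simp only [var, Prod.mk.injEq] at h
  obtain ⟨rfl, h1, h2⟩ := h
  obtain ⟨rfl, rfl⟩ := P.vtx_inj h1
  obtain ⟨rfl, rfl⟩ := P.vtx_inj h2
  rfl

noncomputable def emb (t : P.Idx) : Var n n →₀ ℕ :=
  ∑ d : P.Dv, Finsupp.single (P.var d) (ind (P.y d.1.1) (t d.1) d.2)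

theorem emb_var (t : P.Idx) (d : P.Dv) : P.emb t (P.var d) = ind (P.y d.1.1) (t d.1) d.2 := by
  rw [emb, Finsupp.finsetSum_apply, Finset.sum_eq_single d]
  · simp
  · intro b _ hb
    exact Finsupp.single_eq_of_ne fun h => hb (P.var_inj h).symm
  · simp

theorem emb_out (t : P.Idx) (x : Var n n) (h : ∀ d, P.var d ≠ x) : P.emb t x = 0 := by
  rw [emb, Finsupp.finsetSum_apply]
  exact Finset.sum_eq_zero fun d _ => Finsupp.single_eq_of_ne (h d).symm

noncomputable def enc : Enc (Var n n) P.Idx where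
  emb := P.emb
  inj := fun S T h => funext fun g => ind_inj (y := P.y g.1) fun s =>
    (P.emb_var S ⟨g, s⟩).symm.trans ((DFunLike.congr_fun h _).trans (P.emb_var T ⟨g, s⟩))
  conv := fun S T m h1 h2 => by
    have h3 : ∀ g : Cell n P.w, ∃ u : P.Opt g, ∀ s, m (P.var ⟨g, s⟩) = ind (P.y g.1) u s :=
      fun g => ind_conv (o := S g) (o' := T g) (fun s => m (P.var ⟨g, s⟩))
        (fun s => by rw [← P.emb_var S ⟨g, s⟩]; exact h1 _)
        (fun s => by rw [← P.emb_var T ⟨g, s⟩]; exact h2 _)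
    choose U hU using h3
    refine ⟨U, Finsupp.ext fun x => ?_⟩
    by_cases h : ∃ d, P.var d = x
    · obtain ⟨d, rfl⟩ := h
      rw [P.emb_var, ← hU]
    · push Not at h
      have := h2 x
      rw [P.emb_out T x h] at this
      rw [P.emb_out U x h]
      omega

def used (g : Cell n P.w) (o : P.Opt g) : Bool := if P.y g.1 then o.isNone else o.isSome

end Par

noncomputable def mon {n : ℕ} (v : Fin (n + 1) → Fin n) : Var n n →₀ ℕ :=
  ∑ i : Fin n, Finsupp.single (i, v i.castSucc, v i.succ) 1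

theorem mon_apply {n : ℕ} (v : Fin (n + 1) → Fin n) (x : Var n n) :
    mon v x = if x.2 = (v x.1.castSucc, v x.1.succ) then 1 else 0 := by
  obtain ⟨j, e⟩ := x
  rw [mon, Finsupp.finsetSum_apply, Finset.sum_eq_single j]
  · by_cases h : e = (v j.castSucc, v j.succ)
    · simp [h]
    · have h' : ¬ (v j.castSucc, v j.succ) = e := fun h'' => h h''.symm
      simp [h, h']
  · intro b _ hb
    simp [hb]
  · simp

namespace Par

variable {n : ℕ} (P : Par n)

theorem step_struct {v : Fin (n + 1) → Fin n} {S T : P.Idx} (h : mon v + P.emb S = P.emb T)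
    (i : Fin n) : ∃ (a a' : Fin P.w) (s : P.Sym i), v i.castSucc = P.vtx a s.1 ∧
      v i.succ = P.vtx a' s.2 ∧ P.used (i, a, a') (T (i, a, a')) = true ∧
      (P.y i = true → S (i, a, a') = some s) ∧
      ∀ b b', ¬ (b = a ∧ b' = a') → T (i, b, b') = S (i, b, b') := by
  have h1 := DFunLike.congr_fun h (i, v i.castSucc, v i.succ)
  rw [Finsupp.add_apply, mon_apply, if_pos rfl] at h1
  have h2 : ∃ d, P.var d = (i, v i.castSucc, v i.succ) := by
    by_contra h3
    push Not at h3
    rw [P.emb_out T _ h3] at h1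
    omega
  obtain ⟨⟨⟨j, a, a'⟩, s⟩, hd⟩ := h2
  obtain rfl : j = i := congrArg Prod.fst hd
  rw [← hd, P.emb_var, P.emb_var] at h1
  simp only [var, Prod.mk.injEq, true_and] at hd
  have h4 : ∀ (b b' : Fin P.w) (s' : P.Sym j), ¬ (b = a ∧ b' = a' ∧ s' = s) →
      ind (P.y j) (S (j, b, b')) s' = ind (P.y j) (T (j, b, b')) s' := by
    intro b b' s' hne
    have h5 := DFunLike.congr_fun h (P.var ⟨(j, b, b'), s'⟩)
    rw [Finsupp.add_apply, mon_apply, P.emb_var, P.emb_var, if_neg, zero_add] at h5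
    · exact h5
    · intro h6
      simp only [var, Prod.mk.injEq, ← hd.1, ← hd.2] at h6
      obtain ⟨h7, h8⟩ := P.vtx_inj h6.1
      obtain ⟨h9, h10⟩ := P.vtx_inj h6.2
      exact hne ⟨h7, h9, Prod.ext h8 h10⟩
  have h5 := ind_le (P.y j) (T (j, a, a')) s
  have h6 : ind (P.y j) (S (j, a, a')) s = 0 := by simp only at h1; omega
  have h7 : ind (P.y j) (T (j, a, a')) s = 1 := by simp only at h1; omega
  have h8 : P.y j = true → S (j, a, a') = some s := by
    intro hy
    by_contra h9
    simp [ind, hy, h9] at h6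
  refine ⟨a, a', s, hd.1.symm, hd.2.symm, ?_, h8, fun b b' hne =>
    (ind_inj fun s' => h4 b b' s' fun h9 => hne ⟨h9.1, h9.2.1⟩).symm⟩
  unfold used
  cases hy : P.y j
  · have : T (j, a, a') = some s := by
      by_contra h9
      simp [ind, hy, h9] at h7
    simp [this]
  · simp only [if_true]
    cases hT : T (j, a, a') with
    | none => rfl
    | some s' =>
      exfalso
      have h9 : s' ≠ s := by
        rintro rfl
        simp [ind, hy, hT] at h7
      have h10 := h4 a a' s' fun h => h9 h.2.2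
      simp [ind, hy, hT, h8 hy, h9.symm] at h10

end Par

end Vale.Agent.P346.Gen
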