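import Vale.Agent.P346.G6

namespace Vale.Agent.P346.Gen

open Vale.Agent.P346

namespace Par

variable {n : ℕ} (P : Par n)

def Om (T : P.Idx) : Lex (ℕ ×ₗ ℕ → ℕ) :=
  toLex fun x : ℕ ×ₗ ℕ => pos P.w (uN P.used T (ofLex x).1) ((ofLex x).2 + 1)

theorem uN_true {T : P.Idx} {i j c : ℕ} (h : uN P.used T i j c = true) :
    i < n ∧ j < P.w ∧ c < P.w := by
  by_contra h1
  simp [uN, h1] at h

theorem uN_eq {T T' : P.Idx} {i j c : ℕ}
    (h : ∀ g : Cell n P.w, g.1 = i → g.2.1 = j → g.2.2 = c → P.used g (T g) = P.used g (T' g)) :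
    uN P.used T i j c = uN P.used T' i j c := by
  unfold uN
  split_ifs with h1
  · exact h _ rfl rfl rfl
  · rfl

theorem exists_syms (T : P.Idx) (α : ℕ → Fin P.w)
    (hu : ∀ i : Fin n, P.used (i, α i, α (i + 1)) (T (i, α i, α (i + 1))) = true) :
    ∃ s : ∀ k, Fin (P.σ k), ∀ i : Fin n, P.y i = false →
      T (i, α i, α (i + 1)) = some (s i, s (i + 1)) := by
  have h1 : ∀ i : ℕ, ∃ z : P.Sym i, ∀ h : i < n, P.y i = false →
      T (⟨i, h⟩, α i, α (i + 1)) = some z := by
    intro i
    by_cases h : i < n ∧ P.y i = false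
    · have := hu ⟨i, h.1⟩
      simp only [used, h.2, Bool.false_eq_true, if_false] at this
      obtain ⟨z, hz⟩ := Option.isSome_iff_exists.mp this
      exact ⟨z, fun _ _ => hz⟩
    · exact ⟨(⟨0, P.hσ1 _⟩, ⟨0, P.hσ1 _⟩), fun h1 h2 => absurd ⟨h1, h2⟩ h⟩
  choose z hz using h1
  refine ⟨fun k => if k < n ∧ P.y k = false then (z k).1 else
    Nat.rec (motive := fun k => Fin (P.σ k)) ⟨0, P.hσ1 _⟩ (fun k _ => (z k).2) k, fun i hi => ?_⟩
  rw [hz i i.2 hi]
  simp only [i.2, hi, and_self, if_true]
  congr 1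
  refine Prod.ext rfl ?_
  simp only
  split_ifs with h
  · have h2 := P.alt i (hi.trans h.2.symm)
    have h3 := (z i).2.2
    have h4 := (z (i + 1)).1.2
    exact Fin.ext (by omega)
  · rfl

theorem exists_sel (hn : 0 < n) (T0 : P.Idx) (h : Uf P.w (uN P.used T0) 0 n 1 = true) :
    ∃ (S : P.Idx) (p : Fin (n + 1) → Fin n), p ∈ paths n ∧ mon p + P.emb S = P.emb T0 ∧
      ∀ v ∈ paths n, ∀ T, mon v + P.emb S = P.emb T → v = p ∨ P.Om T < P.Om T0 := by
  obtain ⟨a, ha0, han, hrun⟩ := Uf_path _ _ _ _ _ h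
  rw [zero_add] at han hrun
  have ha0' : a 0 = 0 := by omega
  have hu0 : ∀ j, j < n → uN P.used T0 j (a j) (a (j + 1)) = true := fun j hj =>
    nxt_used (hrun j (Nat.zero_le _) hj).1 (hrun j (Nat.zero_le _) hj).2
  have haw : ∀ j, j ≤ n → a j < P.w := by
    intro j hj
    rcases Nat.eq_or_lt_of_le hj with rfl | h1
    · rw [han]; exact P.hw
    · exact (P.uN_true (hu0 j h1)).2.1
  obtain ⟨α, hα⟩ : ∃ α : ℕ → Fin P.w, ∀ j, j ≤ n → (α j : ℕ) = a j :=
    ⟨fun j => if h : a j < P.w then ⟨a j, h⟩ else ⟨0, P.hw⟩, fun j hj => by simp [haw j hj]⟩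
  have hu : ∀ i : Fin n, P.used (i, α i, α (i + 1)) (T0 (i, α i, α (i + 1))) = true := by
    intro i
    rw [← uN_cell P.used T0 (i, α i, α (i + 1))]
    simp only [hα i i.2.le, hα (i + 1) i.2]
    exact hu0 i i.2
  obtain ⟨s, hs⟩ := P.exists_syms T0 α hu
  obtain ⟨S, hS1, hS2⟩ : ∃ S : P.Idx, (∀ i : Fin n, S (i, α i, α (i + 1)) =
      if P.y i then some (s i, s (i + 1)) else none) ∧
      ∀ (i : Fin n) b b', ¬ (b = α i ∧ b' = α (i + 1)) → S (i, b, b') = T0 (i, b, b') :=
    ⟨fun c => if c.2.1 = α c.1 ∧ c.2.2 = α (c.1 + 1) then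
      (if P.y c.1 then some (s c.1, s (c.1 + 1)) else none) else T0 c,
      fun i => by simp, fun i b b' h => by simp only [h, if_false]⟩
  have hσ0 := P.h0
  have hσn := P.hn
  refine ⟨S, fun k => P.vtx (α k) (s k), ?_, ?_, ?_⟩
  · simp only [paths, Finset.mem_filter, Finset.mem_univ, true_and, vtx_val]
    have h1 := (s 0).2
    have h2 := (s n).2
    constructor
    · change (α 0 : ℕ) * P.Q + s 0 = 0
      rw [hα 0 (Nat.zero_le _), ha0']; omega
    · change (α n : ℕ) * P.Q + s n = 0
      rw [hα n le_rfl, han]; omega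
  · ext x
    rw [Finsupp.add_apply, mon_apply]
    by_cases hx : ∃ d, P.var d = x
    · obtain ⟨⟨⟨i, b, b'⟩, z⟩, rfl⟩ := hx
      rw [P.emb_var, P.emb_var]
      have hiff : (P.var ⟨(i, b, b'), z⟩).2 = (P.vtx (α i) (s i), P.vtx (α (i + 1)) (s (i + 1))) ↔
          b = α i ∧ b' = α (i + 1) ∧ z = (s i, s (i + 1)) := by
        simp only [var, Prod.mk.injEq]
        constructor
        · rintro ⟨h1, h2⟩
          obtain ⟨h3, h4⟩ := P.vtx_inj h1
          obtain ⟨h5, h6⟩ := P.vtx_inj h2
          exact ⟨h3, h5, Prod.ext h4 h6⟩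
        · rintro ⟨rfl, rfl, rfl⟩
          exact ⟨rfl, rfl⟩
      change (if (P.var ⟨(i, b, b'), z⟩).2 = (P.vtx (α i) (s i), P.vtx (α (i + 1)) (s (i + 1)))
        then 1 else 0) + ind (P.y i) (S (i, b, b')) z = ind (P.y i) (T0 (i, b, b')) z
      simp only [hiff]
      by_cases hb : b = α i ∧ b' = α (i + 1)
      · obtain ⟨rfl, rfl⟩ := hb
        rw [hS1]
        cases hy : P.y i
        · rw [hs i hy]
          by_cases hz : z = (s i, s (i + 1))
          · simp [ind, hz]
          · have : ¬ (s i, s (i + 1)) = z := fun h => hz h.symm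
            simp [ind, hz, this]
        · have h1 := hu i
          simp only [used, hy, if_true, Option.isNone_iff_eq_none] at h1
          rw [h1]
          by_cases hz : z = (s i, s (i + 1))
          · simp [ind, hz]
          · have : ¬ (s i, s (i + 1)) = z := fun h => hz h.symm
            simp [ind, hz, this]
      · rw [hS2 i b b' hb, if_neg (fun h => hb ⟨h.1, h.2.1⟩), zero_add]
    · push Not at hx
      rw [P.emb_out S x hx, P.emb_out T0 x hx, if_neg]
      intro h1
      exact hx ⟨(x.1, α x.1, α (x.1 + 1)), (s x.1, s (x.1 + 1))⟩ (Prod.ext rfl h1.symm)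
  · intro v hv T hT
    simp only [paths, Finset.mem_filter, Finset.mem_univ, true_and] at hv
    choose A A' Sy hA hA' hTu hY hoff using P.step_struct hT
    have hcons : ∀ (i : ℕ) (h : i + 1 < n), A ⟨i + 1, h⟩ = A' ⟨i, by omega⟩ := fun i h =>
      (P.vtx_inj ((hA ⟨i + 1, h⟩).symm.trans (hA' ⟨i, by omega⟩))).1
    have hA0 : A ⟨0, hn⟩ = α 0 := by
      have h1 := P.vtx_div (A ⟨0, hn⟩) (Sy ⟨0, hn⟩).1
      rw [← hA ⟨0, hn⟩] at h1
      have h2 : (v (Fin.castSucc ⟨0, hn⟩)).val = 0 := hv.1
      rw [h2, Nat.zero_div] at h1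
      exact Fin.ext (by rw [hα 0 (Nat.zero_le _), ha0', ← h1])
    by_cases hex : ∃ k, ∃ h : k < n, A' ⟨k, h⟩ ≠ α (k + 1)
    · right
      classical
      obtain ⟨hk, hne⟩ := Nat.find_spec hex
      have hmin : ∀ j, j < Nat.find hex → ∀ h : j < n, A' ⟨j, h⟩ = α (j + 1) := by
        intro j hj h
        by_contra h1
        exact Nat.find_min hex hj ⟨h, h1⟩
      generalize Nat.find hex = k at hk hne hmin
      have hAα : ∀ j, j ≤ k → ∀ h : j < n, A ⟨j, h⟩ = α j := by
        intro j hj h
        cases j with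
        | zero => exact hA0
        | succ j => rw [hcons j h, hmin j (by omega)]
      have hlay : ∀ j, j < k → uN P.used T j = uN P.used T0 j := by
        intro j hj
        funext b c
        refine P.uN_eq ?_
        rintro ⟨i, b, b'⟩ rfl - -
        have h1 : A i = α i := hAα i hj.le i.2
        have h2 : A' i = α (i + 1) := hmin i hj i.2
        by_cases hb : b = α i ∧ b' = α (i + 1)
        · obtain ⟨rfl, rfl⟩ := hb
          rw [hu i, ← h1, ← h2, hTu i]
        · rw [hoff i b b' (by rw [h1, h2]; exact hb), hS2 i b b' hb]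
      have hrow : ∀ j, j < a k → uN P.used T k j = uN P.used T0 k j := by
        intro j hj
        funext c
        refine P.uN_eq ?_
        rintro ⟨i, b, b'⟩ rfl rfl -
        have h1 : A i = α i := hAα i le_rfl i.2
        have h2 : b ≠ α i := by
          rintro rfl
          simp only [hα i i.2.le] at hj
          omega
        rw [hoff i b b' (by rw [h1]; exact fun h => h2 h.1), hS2 i b b' fun h => h2 h.1]
      have hfalse : uN P.used T k (a k) (a (k + 1)) = false := by
        have h1 := uN_cell P.used T (⟨k, hk⟩, α k, α (k + 1))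
        simp only [hα k hk.le, hα (k + 1) hk] at h1
        rw [h1, hoff ⟨k, hk⟩ _ _ (fun h => hne h.2.symm), hS1 ⟨k, hk⟩]
        cases hy : P.y k <;> simp [used, hy]
      refine ⟨toLex (k, a k), fun x hx => ?_, ?_⟩
      · obtain ⟨i, j⟩ := x
        change pos P.w (uN P.used T i) (j + 1) = pos P.w (uN P.used T0 i) (j + 1)
        rcases (Prod.Lex.toLex_lt_toLex (x := (i, j)) (y := (k, a k))).mp hx with h1 | ⟨h1, h2⟩
        · rw [hlay i h1]
        · simp only at h1 h2
          subst h1
          exact pos_congr _ _ fun j' hj' => hrow j' (by omega)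
      · change pos P.w (uN P.used T k) (a k + 1) < pos P.w (uN P.used T0 k) (a k + 1)
        obtain ⟨h1, h2⟩ := hrun k (Nat.zero_le _) hk
        refine lt_of_le_of_lt ?_ h2
        by_contra h3
        rw [← pos_congr P.w (a k) hrow] at h1
        have := nxt_used h1 (not_le.mp h3)
        rw [hfalse] at this
        exact Bool.false_ne_true this
    · left
      push Not at hex
      have hAα : ∀ j (h : j < n), A ⟨j, h⟩ = α j := by
        intro j h
        cases j with
        | zero => exact hA0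
        | succ j => rw [hcons j h, hex j]
      have hsy : ∀ i : Fin n, P.y i = true → Sy i = (s i, s (i + 1)) := by
        intro i hi
        have h1 := hY i hi
        rw [hAα i i.2, hex i i.2, hS1, if_pos hi] at h1
        exact (Option.some.inj h1).symm
      funext k
      refine Fin.cases ?_ (fun i => ?_) k
      · refine Fin.ext ?_
        have h1 := (s 0).2
        rw [hv.1]
        change 0 = (α 0 : ℕ) * P.Q + s 0
        rw [hα 0 (Nat.zero_le _), ha0']; omega
      · change v i.succ = P.vtx (α (i + 1)) (s (i + 1))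
        by_cases hi : P.y i = true
        · rw [hA' i, hsy i hi, hex i i.2]
        · by_cases h1 : P.σ (i + 1) = 1
          · rw [hA' i, hex i i.2]
            congr 1
            have h2 := (Sy i).2.2
            have h3 := (s (i + 1)).2
            exact Fin.ext (by omega)
          · have h2 : (i : ℕ) + 1 < n := by
              have := i.2
              rcases Nat.eq_or_lt_of_le (Nat.succ_le_of_lt i.2) with h3 | h3
              · exact absurd ((congrArg P.σ h3).trans hσn) h1
              · exact h3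
            have h3 : P.y (i + 1) = true := by
              by_contra h4
              exact h1 (P.alt i (by simp_all))
            have h4 := hA ⟨i + 1, h2⟩
            rw [hsy ⟨i + 1, h2⟩ h3, hAα] at h4
            exact h4

end Par

end Vale.Agent.P346.Gen
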