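import Vale.Agent.P346.G7

namespace Vale.Agent.P346.Gen

open MvPolynomial Vale.Agent.P346

theorem IMM_mon (K : Type*) [Field K] (n : ℕ) :
    IMM K n n = ∑ v ∈ paths n, monomial (mon v) (1 : K) := by
  refine Finset.sum_congr rfl fun v _ => ?_
  rw [mon, monomial_sum_one]
  rfl

theorem ell_smul (A B : ℝ) (k : ℕ) (φ : ℕ × ℕ) : ell A B (k • φ) = k * ell A B φ := by
  simp [ell]; ring

theorem sum_ind {α : Type} [DecidableEq α] [Fintype α] (y : Bool) (o : Option α) :
    ∑ s, ind y o s = if y then (if o.isSome then Fintype.card α - 1 else Fintype.card α)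
      else (if o.isSome then 1 else 0) := by
  cases o with
  | none => cases y <;> simp [ind]
  | some z =>
    cases y
    · simp [ind]
    · have h : ∑ s, (ind true (some z) s + ind false (some z) s) = Fintype.card α := by
        rw [Fintype.card_eq_sum_ones]
        refine Finset.sum_congr rfl fun s _ => ?_
        by_cases h : z = s <;> simp [ind, h]
      have h2 : ∑ s, ind false (some z) s = 1 := by simp [ind]
      rw [Finset.sum_add_distrib, h2] at h
      simp only [if_true, Option.isSome_some]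
      omega

namespace Par

variable {n : ℕ} (P : Par n) (wf : ℕ → ℕ × ℕ) (A B : ℝ)

theorem MM_IMM (K : Type*) [Field K] (T S : P.Idx) : MM P.enc (IMM K n n) T S =
    ∑ v ∈ paths n, if mon v + P.emb S = P.emb T then 1 else 0 := by
  simp [MM, IMM_mon, Finset.sum_mul, coeff_sum, monomial_mul, coeff_monomial, enc,
    - Finset.sum_boole]

theorem mu_IMM_ge (K : Type*) [Field K] (hn : 0 < n) :
    (∑ T, Real.exp (ell A B (key P.enc (fun x => wf x.1) T)) *
      (if Uf P.w (uN P.used T) 0 n 1 = true then 1 else 0)) *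
      Real.exp (- ell A B (∑ i : Fin n, wf i)) ≤
      mu P.enc (fun x => wf x.1) A B (∑ i : Fin n, wf i) (IMM K n n) := by
  classical
  have h := P.exists_sel hn
  choose! sel p hp h1 h2 using h
  refine mu_ge_tri P.enc _ A B _ _ _ sel P.Om (fun T hT => ?_) (fun T hT => ?_)
    (fun T T0 hT hne => ?_)
  · change Finsupp.weight _ (P.emb T) = Finsupp.weight _ (P.emb (sel T)) + _
    rw [← h1 T hT, map_add, add_comm, mon, map_sum]
    simp [Finsupp.weight_single]
  · rw [MM_IMM, Finset.sum_eq_single (p T hT)]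
    · simp [h1 T hT]
    · intro v hv hne
      rw [if_neg]
      intro h3
      rcases h2 T hT v hv T h3 with h4 | h4
      · exact hne h4
      · exact lt_irrefl _ h4
    · intro h3
      exact absurd (hp T hT) h3
  · rw [MM_IMM] at hne
    obtain ⟨v, hv, h3⟩ := Finset.exists_ne_zero_of_sum_ne_zero hne
    have h4 : mon v + P.emb (sel T0) = P.emb T := by
      by_contra h5
      exact h3 (if_neg h5)
    rcases h2 T0 hT v hv T h4 with h5 | h5
    · left
      rw [h5, h1 T0 hT] at h4
      exact (P.enc.inj h4).symm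
    · exact Or.inr h5

noncomputable def om (g : Cell n P.w) (o : P.Opt g) : ℝ :=
  Real.exp (ell A B (wf g.1)) ^ (∑ s, ind (P.y g.1) o s)

theorem exp_key (T : P.Idx) :
    Real.exp (ell A B (key P.enc (fun x => wf x.1) T)) = ∏ g, P.om wf A B g (T g) := by
  change Real.exp (ell A B (Finsupp.weight _ (P.emb T))) = _
  rw [emb, map_sum, ell_sum, Fintype.sum_sigma, Real.exp_sum]
  refine Finset.prod_congr rfl fun g _ => ?_
  simp only [Finsupp.weight_single, ell_smul, om, var]
  rw [← Finset.sum_mul, ← Real.exp_nat_mul, Nat.cast_sum]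

noncomputable def gam (i : ℕ) : ℝ :=
  if P.y i then Real.exp (ell A B (wf i)) / (P.σ i * P.σ (i + 1))
  else P.σ i * P.σ (i + 1) * Real.exp (ell A B (wf i))

theorem gam_nonneg (i : ℕ) : 0 ≤ P.gam wf A B i := by
  unfold gam
  split_ifs <;> positivity

theorem fresh_pos (g : Cell n P.w) :
    0 < ∑ o, P.om wf A B g o * (if P.used g o then 0 else 1) := by
  have h1 : (0 : ℝ) < P.σ g.1 := by exact_mod_cast P.hσ1 _
  have h2 : (0 : ℝ) < P.σ (g.1 + 1) := by exact_mod_cast P.hσ1 _
  rw [Fintype.sum_option]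
  cases hy : P.y g.1
  · simp [om, used, hy, sum_ind]
  · simp only [om, used, hy, sum_ind]
    simp
    positivity

theorem used_eq (g : Cell n P.w) :
    ∑ o, P.om wf A B g o * (if P.used g o then 1 else 0) =
      P.gam wf A B g.1 * ∑ o, P.om wf A B g o * (if P.used g o then 0 else 1) := by
  have h1 : (0 : ℝ) < P.σ g.1 := by exact_mod_cast P.hσ1 _
  have h2 : (0 : ℝ) < P.σ (g.1 + 1) := by exact_mod_cast P.hσ1 _
  have h3 : 0 < P.σ g.1 * P.σ (g.1 + 1) := Nat.mul_pos (P.hσ1 _) (P.hσ1 _)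
  rw [Fintype.sum_option, Fintype.sum_option]
  cases hy : P.y g.1
  · simp [om, used, hy, sum_ind, gam]
  · simp only [om, used, hy, sum_ind, gam]
    simp
    obtain ⟨k, hk⟩ : ∃ k, P.σ g.1 * P.σ (g.1 + 1) = k + 1 := ⟨_, (Nat.succ_pred_eq_of_pos h3).symm⟩
    rw [hk, Nat.add_sub_cancel, pow_succ]
    field_simp

theorem mu_IMM_ge' (K : Type*) [Field K] (hn : 0 < n) (s η : ℕ → ℝ)
    (hs : ∀ i, 0 ≤ s i ∧ s i ≤ 1) (hη0 : ∀ i, 0 ≤ η i)
    (hη : ∀ i, i < n → ∃ κ, 0 ≤ κ ∧ κ ≤ 1 ∧
      κ * s i * (1 + P.gam wf A B i * s (i + 1)) ≤ P.gam wf A B i * s (i + 1) ∧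
      η i ≤ κ * (1 - (1 - s (i + 1)) ^ P.w)) :
    0 < ZZ P.enc (fun x => wf x.1) A B ∧
    (∏ j ∈ Finset.range n, η j) * ZZ P.enc (fun x => wf x.1) A B * s 0 *
      Real.exp (- ell A B (∑ i : Fin n, wf i)) ≤
      mu P.enc (fun x => wf x.1) A B (∑ i : Fin n, wf i) (IMM K n n) := by
  refine ⟨Finset.sum_pos (fun _ _ => Real.exp_pos _) ⟨fun _ => none, Finset.mem_univ _⟩, ?_⟩
  have h := surv_bound P.used (P.om wf A B) (P.gam wf A B) (P.fresh_pos wf A B)
    (P.used_eq wf A B) (P.gam_nonneg wf A B) (fun g o => by unfold om; positivity) P.hw s η hs hη0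
    hη n 0 1 (zero_add n) P.hw
  refine le_trans (mul_le_mul_of_nonneg_right ?_ (Real.exp_pos _).le) (P.mu_IMM_ge wf A B K hn)
  simp only [SW, zero_add, mul_one, pow_one, sub_sub_cancel, ← P.exp_key wf A B] at h
  exact h

end Par

end Vale.Agent.P346.Gen
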