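import Vale.Agent.P346.G8

namespace Vale.Agent.P346.Gen

open MvPolynomial Vale.Agent.P346

noncomputable def sig (n : ℕ) (A B : ℝ) (i : ℕ) : ℕ :=
  if i < n then ⌊Real.exp |pre A B i|⌋₊ else 1

variable {n : ℕ} {A B : ℝ}

theorem sig_pos (i : ℕ) : 0 < sig n A B i := by
  unfold sig
  split_ifs
  · exact Nat.floor_pos.mpr (Real.one_le_exp (abs_nonneg _))
  · exact one_pos

theorem pre_pos_of_Y (hB : 0 ≤ B) (hBA : B < A) {i : ℕ} (h : pre A B i ≤ 0) :
    0 < pre A B (i + 1) := by
  rw [pre, if_pos h]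
  linarith [(pre_bounds (hB.trans hBA.le) hB i).1]

theorem sig_one (hB : 0 ≤ B) (hBA : B < A) (hAB : A - B ≤ 1 / 4) {i : ℕ} (h : ¬ pre A B i ≤ 0)
    (h' : ¬ pre A B (i + 1) ≤ 0) : sig n A B (i + 1) = 1 := by
  unfold sig
  split_ifs
  · have h1 : pre A B (i + 1) ≤ 1 / 4 := by
      rw [pre, if_neg h]
      linarith [(pre_bounds (hB.trans hBA.le) hB i).2]
    rw [abs_of_pos (not_le.mp h'), Nat.floor_eq_iff (Real.exp_pos _).le]
    refine ⟨by simpa using (not_le.mp h').le, ?_⟩
    have h2 := Real.add_one_le_exp (- pre A B (i + 1))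
    have h3 : Real.exp (pre A B (i + 1)) * Real.exp (- pre A B (i + 1)) = 1 := by
      rw [← Real.exp_add]; simp
    have h4 := Real.exp_pos (pre A B (i + 1))
    push_cast
    nlinarith
  · rfl

noncomputable def par (hB : 0 ≤ B) (hBA : B < A) (hAB : A - B ≤ 1 / 4)
    (hn : ⌊Real.exp A⌋₊ ≤ n) : Par n where
  w := n / ⌊Real.exp A⌋₊
  Q := ⌊Real.exp A⌋₊
  σ := sig n A B
  y := fun i => decide (pre A B i ≤ 0)
  hw := Nat.div_pos hn (Nat.floor_pos.mpr (Real.one_le_exp (hB.trans hBA.le)))
  hwQ := Nat.div_mul_le_self _ _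
  hσQ := fun i => by
    unfold sig
    split_ifs
    · refine Nat.floor_le_floor (Real.exp_le_exp.mpr (abs_le.mpr ?_))
      have := pre_bounds (hB.trans hBA.le) hB i
      constructor <;> linarith [this.1, this.2]
    · exact Nat.floor_pos.mpr (Real.one_le_exp (hB.trans hBA.le))
  hσ1 := sig_pos
  h0 := by simp [sig, pre]
  hn := by simp [sig]
  alt := fun i h => by
    by_cases h1 : pre A B i ≤ 0
    · have := pre_pos_of_Y hB hBA h1
      simp [h1, not_le.mpr this] at h
    · refine sig_one hB hBA hAB h1 fun h2 => ?_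
      simp [h1, h2] at h

noncomputable def Pi' (n : ℕ) (A B : ℝ) (i : ℕ) : ℝ :=
  if pre A B i ≤ 0 then Real.exp (pre A B i) * sig n A B i else Real.exp (pre A B i) / sig n A B i

theorem Pi'_bounds {i : ℕ} (hi : i < n) : 1 / 2 ≤ Pi' n A B i ∧ Pi' n A B i ≤ 2 := by
  have h1 : (sig n A B i : ℝ) ≤ Real.exp |pre A B i| := by
    rw [sig, if_pos hi]; exact Nat.floor_le (Real.exp_pos _).le
  have h2 : Real.exp |pre A B i| < sig n A B i + 1 := by
    rw [sig, if_pos hi]; exact Nat.lt_floor_add_one _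
  have h3 : (1 : ℝ) ≤ sig n A B i := by exact_mod_cast sig_pos i
  have h4 := Real.exp_pos (pre A B i)
  unfold Pi'
  split_ifs with h
  · rw [abs_of_nonpos h] at h1 h2
    have h5 : Real.exp (pre A B i) * Real.exp (- pre A B i) = 1 := by rw [← Real.exp_add]; simp
    constructor <;> nlinarith
  · rw [abs_of_pos (not_le.mp h)] at h1 h2
    constructor
    · rw [le_div_iff₀ (by linarith)]; linarith
    · rw [div_le_iff₀ (by linarith)]; linarith

theorem gam_mul (hB : 0 ≤ B) (hBA : B < A) (hAB : A - B ≤ 1 / 4) (hn : ⌊Real.exp A⌋₊ ≤ n)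
    (i : ℕ) : (par hB hBA hAB hn).gam (wl A B) A B i * Pi' n A B i = Pi' n A B (i + 1) := by
  have h1 : (0 : ℝ) < sig n A B i := by exact_mod_cast sig_pos i
  have h2 : (0 : ℝ) < sig n A B (i + 1) := by exact_mod_cast sig_pos (i + 1)
  have h3 : Real.exp (pre A B (i + 1)) = Real.exp (pre A B i) * Real.exp (ell A B (wl A B i)) := by
    rw [pre_succ, Real.exp_add]
  simp only [Par.gam, par, Pi', decide_eq_true_eq, h3]
  by_cases h : pre A B i ≤ 0
  · rw [if_pos h, if_pos h, if_neg (not_le.mpr (pre_pos_of_Y hB hBA h))]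
    field_simp
  · rw [if_neg h, if_neg h]
    split_ifs with h'
    · field_simp
    · rw [sig_one hB hBA hAB h h']
      field_simp
      simp

theorem mu_IMM_all (K : Type*) [Field K] (hB : 0 ≤ B) (hBA : B < A) (hAB : A - B ≤ 1 / 4)
    (hn : ⌊Real.exp A⌋₊ ≤ n) (hn0 : 0 < n) (ρ : ℝ) (hρ0 : 0 ≤ ρ) (hρ1 : 2 * ρ ≤ 1)
    (hρ : 2 * Real.log (2 * n) ≤ ρ * (n / ⌊Real.exp A⌋₊ : ℕ)) :
    0 < ZZ (par hB hBA hAB hn).enc (wtI A B n) A B ∧
    Real.exp (- (2 * ρ * n)) / 2 * (1 / (1 + 2 * Real.exp A)) *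
      ZZ (par hB hBA hAB hn).enc (wtI A B n) A B * ρ * Real.exp (- pre A B n) ≤
      mu (par hB hBA hAB hn).enc (wtI A B n) A B (tauI A B n) (IMM K n n) := by
  have hn' : (1 : ℝ) ≤ n := by exact_mod_cast hn0
  have hEA := Real.exp_pos A
  have h2n : 0 ≤ 1 - 1 / (2 * (n : ℝ)) := by
    rw [sub_nonneg, div_le_one (by linarith)]; linarith
  have hs : ∀ i, i < n → ρ / 2 ≤ ρ / Pi' n A B i ∧ ρ / Pi' n A B i ≤ 2 * ρ := by
    intro i hi
    obtain ⟨h1, h2⟩ := Pi'_bounds (A := A) (B := B) hi
    constructor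
    · exact div_le_div_of_nonneg_left hρ0 (by linarith) h2
    · rw [div_le_iff₀ (by linarith)]; nlinarith
  have h := (par hB hBA hAB hn).mu_IMM_ge' (wl A B) A B K hn0
    (fun i => if i < n then ρ / Pi' n A B i else 1)
    (fun i => if i + 1 < n then Real.exp (- (2 * ρ)) * (1 - 1 / (2 * n))
      else 1 / (1 + 2 * Real.exp A))
    (fun i => by
      split_ifs with hi
      · constructor <;> linarith [(hs i hi).1, (hs i hi).2]
      · simp)
    (fun i => by split_ifs <;> positivity)
    (fun i hi => by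
      have hg := gam_mul hB hBA hAB hn i
      have hw := (par hB hBA hAB hn).hw
      generalize (par hB hBA hAB hn).gam (wl A B) A B i = γ at hg
      obtain ⟨p1, p2⟩ := Pi'_bounds (A := A) (B := B) hi
      obtain ⟨s1, s2⟩ := hs i hi
      rw [if_pos hi]
      by_cases hi' : i + 1 < n
      · rw [if_pos hi', if_pos hi']
        obtain ⟨p3, p4⟩ := Pi'_bounds (A := A) (B := B) hi'
        obtain ⟨s3, s4⟩ := hs (i + 1) hi'
        have e1 : γ * (ρ / Pi' n A B (i + 1)) = ρ / Pi' n A B i := by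
          have : γ ≠ 0 := by rintro rfl; rw [zero_mul] at hg; linarith
          rw [← hg]; field_simp
        rw [e1]
        generalize ρ / Pi' n A B i = s at *
        generalize ρ / Pi' n A B (i + 1) = s' at *
        have hs0 : 0 < 1 + s := by linarith
        refine ⟨1 / (1 + s), by positivity, (div_le_one hs0).mpr (by linarith), ?_, ?_⟩
        · apply le_of_eq; field_simp
        · refine mul_le_mul ?_ ?_ h2n (by positivity)
          · rw [le_div_iff₀ hs0]
            have h1 := Real.add_one_le_exp s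
            have h2 : Real.exp (- (2 * ρ)) * Real.exp s ≤ 1 := by
              rw [← Real.exp_add, Real.exp_le_one_iff]; linarith
            have h3 := Real.exp_pos (- (2 * ρ))
            nlinarith
          · have h1 : (1 - s') ^ (par hB hBA hAB hn).w ≤
                Real.exp (- s') ^ (par hB hBA hAB hn).w :=
              pow_le_pow_left₀ (by linarith) (by linarith [Real.add_one_le_exp (- s')]) _
            have h2 : Real.exp (- s') ^ (par hB hBA hAB hn).w ≤ 1 / (2 * n) := by
              rw [← Real.exp_nat_mul, one_div, ← Real.exp_log (by linarith : (0 : ℝ) < 2 * n),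
                ← Real.exp_neg, Real.exp_le_exp]
              change ((n / ⌊Real.exp A⌋₊ : ℕ) : ℝ) * - s' ≤ _
              have h3 : (0 : ℝ) ≤ (n / ⌊Real.exp A⌋₊ : ℕ) := Nat.cast_nonneg _
              nlinarith
            linarith
      · rw [if_neg hi', if_neg hi']
        have e1 : Pi' n A B (i + 1) = Real.exp (pre A B (i + 1)) := by
          simp [Pi', sig, hi']
        have e2 : 1 ≤ Real.exp A * Real.exp (pre A B (i + 1)) := by
          rw [← Real.exp_add]
          exact Real.one_le_exp (by linarith [(pre_bounds (hB.trans hBA.le) hB (i + 1)).1])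
        have e3 : 0 < γ := by
          have := Real.exp_pos (pre A B (i + 1))
          rw [← e1, ← hg] at this
          exact (mul_pos_iff_of_pos_right (by linarith)).mp this
        have e4 : 1 ≤ 2 * Real.exp A * γ := by
          rw [← e1, ← hg] at e2
          have : 0 < Real.exp A * γ := by positivity
          nlinarith
        have hd : 0 < 1 + 2 * Real.exp A := by positivity
        refine ⟨1 / (1 + 2 * Real.exp A), by positivity, (div_le_one hd).mpr (by linarith), ?_, ?_⟩
        · calc _ ≤ 1 / (1 + 2 * Real.exp A) * 1 * (1 + γ * 1) := by gcongr; linarith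
            _ ≤ _ := by
              rw [mul_one, mul_one, one_div, inv_mul_le_iff₀ hd]; nlinarith
        · simp [hw.ne'])
  refine ⟨h.1, le_trans ?_ h.2⟩
  have hZ := h.1
  have e0 : Pi' n A B 0 = 1 := by simp [Pi', pre, sig]
  have e1 := ell_tauI A B n
  rw [tauI] at e1
  simp only [hn0, if_true, e0, div_one, e1]
  have e2 : Real.exp (- (2 * ρ * n)) / 2 * (1 / (1 + 2 * Real.exp A)) ≤ ∏ j ∈ Finset.range n,
      (if j + 1 < n then Real.exp (- (2 * ρ)) * (1 - 1 / (2 * n))
        else 1 / (1 + 2 * Real.exp A)) := by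
    have b1 : Real.exp (- (2 * ρ * n)) / 2 ≤ (Real.exp (- (2 * ρ)) * (1 - 1 / (2 * n))) ^ n := by
      rw [mul_pow, ← Real.exp_nat_mul]
      have b2 := one_add_mul_le_pow (a := - (1 / (2 * (n : ℝ)))) (by linarith) n
      have b3 : 1 + (n : ℝ) * - (1 / (2 * n)) = 1 / 2 := by field_simp; ring
      rw [b3, ← sub_eq_add_neg] at b2
      rw [show (n : ℝ) * - (2 * ρ) = - (2 * ρ * n) by ring, div_eq_mul_one_div]
      gcongr
    have b4 : Real.exp (- (2 * ρ)) * (1 - 1 / (2 * n)) ≤ 1 := by
      have : Real.exp (- (2 * ρ)) ≤ 1 := Real.exp_le_one_iff.mpr (by linarith)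
      have : 0 ≤ 1 / (2 * (n : ℝ)) := by positivity
      nlinarith [Real.exp_pos (- (2 * ρ))]
    have b5 : 0 ≤ Real.exp (- (2 * ρ)) * (1 - 1 / (2 * n)) := by positivity
    generalize Real.exp (- (2 * ρ)) * (1 - 1 / (2 * n)) = η at *
    refine le_trans (mul_le_mul_of_nonneg_right b1 (by positivity)) ?_
    obtain ⟨m, rfl⟩ : ∃ m, n = m + 1 := ⟨n - 1, by omega⟩
    rw [Finset.prod_range_succ, if_neg (lt_irrefl _), Finset.prod_congr rfl
      (fun j hj => if_pos (by simpa using hj)), Finset.prod_const, Finset.card_range]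
    exact mul_le_mul_of_nonneg_right (pow_le_pow_of_le_one b5 b4 (by omega)) (by positivity)
  exact mul_le_mul_of_nonneg_right (mul_le_mul_of_nonneg_right
    (mul_le_mul_of_nonneg_right e2 hZ.le) hρ0) (Real.exp_pos _).le

end Vale.Agent.P346.Gen
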