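import Vale.Agent.P346.Meas

namespace Vale.Agent.P346

open MvPolynomial Matrix

variable {K : Type*} [Field K] {V : Type} [Fintype V] [DecidableEq V]
variable (wt : V → ℕ × ℕ) (A B : ℝ) (τ : ℕ × ℕ)

theorem sum_key (φ : (V → Bool) → ℝ) :
    ∑ κ ∈ Finset.univ.image (key wt), Real.exp (ell A B κ) *
      ∑ S, (if key wt S = κ then φ S else 0) = ∑ S, Real.exp (ell A B (key wt S)) * φ S := by
  simp only [Finset.mul_sum]
  rw [Finset.sum_comm]
  refine Finset.sum_congr rfl fun S _ => ?_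
  rw [Finset.sum_eq_single (key wt S)]
  · simp
  · intro b _ hb
    simp [hb.symm]
  · intro h
    exact absurd (Finset.mem_image_of_mem _ (Finset.mem_univ S)) h

theorem mu_lower [CharZero K] (f : MvPolynomial V K) (N : Matrix (V → Bool) (V → Bool) ℕ)
    (hN : MM f = N.map (fun a : ℕ => (a : K)))
    (hk : ∀ T S, N T S ≠ 0 → key wt T = key wt S + τ) :
    (∑ S, Real.exp (ell A B (key wt S)) * ∑ T, (N T S : ℝ) ^ 2) ^ 2 ≤
      mu wt A B τ f *
        ∑ S, Real.exp (ell A B (key wt S)) * ∑ S', (∑ T, (N T S : ℝ) * N T S') ^ 2 := by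
  rw [← sum_key, ← sum_key, mu]
  refine Finset.sum_sq_le_sum_mul_sum_of_sq_le_mul _ ?_ ?_ ?_
  · intro κ _; positivity
  · intro κ _
    refine mul_nonneg (Real.exp_pos _).le (Finset.sum_nonneg fun S _ => ?_)
    split_ifs
    · positivity
    · exact le_rfl
  · intro κ _
    set Nk : Matrix (V → Bool) (V → Bool) ℕ :=
      Matrix.of fun T S => if key wt S = κ then N T S else 0 with hNk
    have h1 : DD K wt (κ + τ) * MM f * DD K wt κ = Nk.map (fun a : ℕ => (a : K)) := by
      ext T S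
      simp only [DD, Matrix.mul_diagonal, Matrix.diagonal_mul, hN, hNk, Matrix.map_apply,
        Matrix.of_apply]
      by_cases h2 : key wt S = κ
      · by_cases h3 : N T S = 0
        · simp [h3]
        · simp [hk T S h3, h2]
      · simp [h2]
    rw [h1, rank_natCast_eq]
    have h2 := trace_sq_le' (Nk.map (fun a : ℕ => (a : ℝ)))
    have h3 : ∑ S, ∑ T, (Nk.map (fun a : ℕ => (a : ℝ))) T S ^ 2 =
        ∑ S, (if key wt S = κ then ∑ T, (N T S : ℝ) ^ 2 else 0) := by
      refine Finset.sum_congr rfl fun S _ => ?_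
      by_cases h : key wt S = κ <;> simp [hNk, h]
    have h4 : ∑ S, ∑ S', (∑ T, (Nk.map (fun a : ℕ => (a : ℝ))) T S *
        (Nk.map (fun a : ℕ => (a : ℝ))) T S') ^ 2 ≤
        ∑ S, (if key wt S = κ then ∑ S', (∑ T, (N T S : ℝ) * N T S') ^ 2 else 0) := by
      refine Finset.sum_le_sum fun S _ => ?_
      by_cases h : key wt S = κ
      · rw [if_pos h]
        refine Finset.sum_le_sum fun S' _ => ?_
        by_cases h' : key wt S' = κ
        · simp [hNk, h, h']
        · simp only [hNk, Matrix.map_apply, Matrix.of_apply, h', if_false, Nat.cast_zero, mul_zero,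
            Finset.sum_const_zero]
          rw [zero_pow two_ne_zero]
          positivity
      · simp [hNk, h]
    rw [h3] at h2
    have h5 := h2.trans (mul_le_mul_of_nonneg_left h4 (Nat.cast_nonneg _))
    have h6 : 0 ≤ Real.exp (ell A B κ) ^ 2 := by positivity
    have h7 := mul_le_mul_of_nonneg_left h5 h6
    rw [mul_pow]
    refine h7.trans (le_of_eq ?_)
    ring

def ind (a s t : Bool) : ℕ := if a.toNat + s.toNat = t.toNat then 1 else 0

noncomputable def gam (x : V) : ℝ := Real.exp (ell A B (wt x))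

omit [DecidableEq V] in
theorem key_eq (S : V → Bool) : key wt S = ∑ x, (S x).toNat • wt x := by
  rw [key, Finsupp.weight_apply, Finsupp.sum_fintype]
  · simp
  · simp

theorem ell_sum {ι : Type*} (s : Finset ι) (f : ι → ℕ × ℕ) :
    ell A B (∑ i ∈ s, f i) = ∑ i ∈ s, ell A B (f i) := by
  classical
  induction s using Finset.induction_on with
  | empty => simp [ell_zero]
  | insert a s ha ih => rw [Finset.sum_insert ha, Finset.sum_insert ha, ell_add, ih]

omit [DecidableEq V] in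
theorem exp_key (S : V → Bool) :
    Real.exp (ell A B (key wt S)) = ∏ x, (if S x then gam wt A B x else 1) := by
  rw [key_eq, ell_sum, Real.exp_sum]
  refine Finset.prod_congr rfl fun x _ => ?_
  cases S x <;> simp [gam, ell_zero]

theorem ZZ_eq : ZZ wt A B = ∏ x, (1 + gam wt A B x) := by
  simp only [ZZ, exp_key]
  rw [← Fintype.prod_sum (fun x (b : Bool) => if b then gam wt A B x else 1)]
  simp [add_comm]

variable {ι : Type} (P : Finset ι) (a : ι → V → Bool)

def NN : Matrix (V → Bool) (V → Bool) ℕ :=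
  Matrix.of fun T S => ∑ v ∈ P, ∏ x, ind (a v x) (S x) (T x)

theorem prod_ind (U S T : V → Bool) :
    ∏ x, ind (U x) (S x) (T x) = if emb U + emb S = emb T then 1 else 0 := by
  classical
  simp only [ind]
  rw [Finset.prod_boole]
  congr 1
  simp [Finsupp.ext_iff]

theorem MM_sum_monomial :
    MM (∑ v ∈ P, monomial (emb (a v)) (1 : K)) = (NN P a).map (fun a : ℕ => (a : K)) := by
  ext T S
  simp [MM, NN, Finset.sum_mul, coeff_sum, prod_ind, monomial_mul, coeff_monomial]

theorem NN_key (hP : ∀ v ∈ P, key wt (a v) = τ) (T S : V → Bool) (h : NN P a T S ≠ 0) :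
    key wt T = key wt S + τ := by
  obtain ⟨v, hv, h1⟩ := Finset.exists_ne_zero_of_sum_ne_zero h
  rw [prod_ind] at h1
  have h2 : emb (a v) + emb S = emb T := by
    by_contra h3
    exact h1 (if_neg h3)
  rw [← hP v hv, key, ← h2, map_add, add_comm]
  rfl

theorem W2_ge : ∑ v ∈ P, ∏ x, (if a v x then 1 else 1 + gam wt A B x) ≤
    ∑ S, Real.exp (ell A B (key wt S)) * ∑ T, (NN P a T S : ℝ) ^ 2 := by
  have h1 : ∑ S, Real.exp (ell A B (key wt S)) * ∑ T, (NN P a T S : ℝ) ≤
      ∑ S, Real.exp (ell A B (key wt S)) * ∑ T, (NN P a T S : ℝ) ^ 2 := by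
    refine Finset.sum_le_sum fun S _ => mul_le_mul_of_nonneg_left
      (Finset.sum_le_sum fun T _ => ?_) (Real.exp_pos _).le
    exact_mod_cast Nat.le_self_pow two_ne_zero _
  refine le_trans (le_of_eq ?_) h1
  simp only [NN, Matrix.of_apply, Nat.cast_sum, Nat.cast_prod, exp_key, Finset.mul_sum,
    ← Finset.prod_mul_distrib]
  simp only [Finset.sum_comm (s := (Finset.univ : Finset (V → Bool))) (t := P)]
  refine Finset.sum_congr rfl fun v _ => ?_
  have h2 : ∀ S : V → Bool, ∑ T : V → Bool, ∏ x, ((if S x then gam wt A B x else 1) *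
      (ind (a v x) (S x) (T x) : ℝ)) = ∏ x, ∑ t : Bool, ((if S x then gam wt A B x else 1) *
      (ind (a v x) (S x) t : ℝ)) := fun S =>
    (Fintype.prod_sum (fun x (t : Bool) => ((if S x then gam wt A B x else 1) *
      (ind (a v x) (S x) t : ℝ)))).symm
  simp only [h2]
  rw [← Fintype.prod_sum (fun x (s : Bool) => ∑ t : Bool, ((if s then gam wt A B x else 1) *
      (ind (a v x) s t : ℝ)))]
  refine Finset.prod_congr rfl fun x _ => ?_
  cases a v x <;> simp [ind, add_comm]

noncomputable def gfun (γ : ℝ) (a1 a2 a3 a4 : Bool) : ℝ :=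
  ∑ s : Bool, ∑ s' : Bool, ∑ t : Bool, ∑ t' : Bool, (if s then γ else 1) *
    ((ind a1 s t : ℝ) * ind a2 s' t * ((ind a4 s t' : ℝ) * ind a3 s' t'))

theorem sum4_prod (ψ : V → Bool → Bool → Bool → Bool → ℝ) :
    ∑ S : V → Bool, ∑ S' : V → Bool, ∑ T : V → Bool, ∑ T' : V → Bool,
      ∏ x, ψ x (S x) (S' x) (T x) (T' x) = ∏ x, ∑ s, ∑ s', ∑ t, ∑ t', ψ x s s' t t' := by
  rw [Fintype.prod_sum]
  refine Finset.sum_congr rfl fun S _ => ?_
  rw [Fintype.prod_sum]
  refine Finset.sum_congr rfl fun S' _ => ?_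
  rw [Fintype.prod_sum]
  refine Finset.sum_congr rfl fun T _ => ?_
  rw [Fintype.prod_sum]

theorem W4_eq : ∑ S, Real.exp (ell A B (key wt S)) *
      ∑ S', (∑ T, (NN P a T S : ℝ) * NN P a T S') ^ 2 =
    ∑ v1 ∈ P, ∑ v2 ∈ P, ∑ v4 ∈ P, ∑ v3 ∈ P,
      ∏ x, gfun (gam wt A B x) (a v1 x) (a v2 x) (a v3 x) (a v4 x) := by
  simp only [gfun, ← sum4_prod]
  simp only [← Finset.sum_comm (s := (Finset.univ : Finset (V → Bool))) (t := P)]
  refine Finset.sum_congr rfl fun S _ => ?_
  rw [Finset.mul_sum]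
  refine Finset.sum_congr rfl fun S' _ => ?_
  rw [sq, Finset.sum_mul_sum, Finset.mul_sum]
  refine Finset.sum_congr rfl fun T _ => ?_
  rw [Finset.mul_sum]
  refine Finset.sum_congr rfl fun T' _ => ?_
  simp only [NN, Matrix.of_apply, Nat.cast_sum, Nat.cast_prod, exp_key, Finset.prod_mul_distrib,
    ← Finset.mul_sum, ← Finset.sum_mul]

theorem mu_lower' [CharZero K] (hP : ∀ v ∈ P, key wt (a v) = τ) :
    (∑ v ∈ P, ∏ x, (if a v x then 1 else 1 + gam wt A B x)) ^ 2 ≤
      mu wt A B τ (∑ v ∈ P, monomial (emb (a v)) (1 : K)) *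
        ∑ v1 ∈ P, ∑ v2 ∈ P, ∑ v4 ∈ P, ∑ v3 ∈ P,
          ∏ x, gfun (gam wt A B x) (a v1 x) (a v2 x) (a v3 x) (a v4 x) := by
  rw [← W4_eq]
  refine le_trans ?_ (mu_lower wt A B τ _ (NN P a) (MM_sum_monomial P a) (NN_key wt τ P a hP))
  refine pow_le_pow_left₀ (Finset.sum_nonneg fun v _ => Finset.prod_nonneg fun x _ => ?_)
    (W2_ge wt A B P a) 2
  have : 0 < gam wt A B x := Real.exp_pos _
  split_ifs <;> positivity

end Vale.Agent.P346
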