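import Mathlib

namespace Vale.Agent.P346

variable {R : Type*} [CommSemiring R] {Ω : Type} [Fintype Ω] [DecidableEq Ω]

def PM (f : ℕ → Matrix Ω Ω R) : ℕ → Matrix Ω Ω R
  | 0 => 1
  | m + 1 => PM f m * f m

theorem PM_zero (f : ℕ → Matrix Ω Ω R) : PM f 0 = 1 := rfl

theorem PM_succ (f : ℕ → Matrix Ω Ω R) (m : ℕ) : PM f (m + 1) = PM f m * f m := rfl

theorem PM_add (f : ℕ → Matrix Ω Ω R) (a c : ℕ) :
    PM f (a + c) = PM f a * PM (fun r => f (a + r)) c := by
  induction c with
  | zero => simp [PM_zero]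
  | succ c ih => rw [← add_assoc, PM_succ, PM_succ, ih, Matrix.mul_assoc]

theorem PM_blocks (f : ℕ → Matrix Ω Ω R) (b j : ℕ) :
    PM f (j * b) = PM (fun j => PM (fun r => f (j * b + r)) b) j := by
  induction j with
  | zero => simp [PM_zero]
  | succ j ih => rw [add_mul, one_mul, PM_add, PM_succ, ih]

theorem PM_one (f : ℕ → Matrix Ω Ω R) (hf : ∀ i, f i = 1) (m : ℕ) : PM f m = 1 := by
  induction m with
  | zero => rfl
  | succ m ih => rw [PM_succ, ih, hf, one_mul]

theorem PM_path (f : ℕ → Matrix Ω Ω R) (m : ℕ) (x y : Ω) :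
    PM f m x y = ∑ p ∈ (Finset.univ : Finset (Fin (m + 1) → Ω)).filter
      (fun p => p 0 = x ∧ p (Fin.last m) = y), ∏ i : Fin m, f i (p i.castSucc) (p i.succ) := by
  induction m generalizing y with
  | zero =>
    rw [PM_zero, Finset.sum_filter, ← (Equiv.funUnique (Fin 1) Ω).symm.sum_comp, Matrix.one_apply]
    by_cases h : x = y
    · subst h; simp
    · rw [if_neg h]
      symm
      refine Finset.sum_eq_zero fun z _ => ?_
      rw [if_neg]
      rintro ⟨h1, h2⟩
      exact h (h1.symm.trans h2)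
  | succ m ih =>
    rw [Finset.sum_filter,
      ← (Fin.snocEquiv (fun _ : Fin (m + 2) => Ω)).sum_comp, Fintype.sum_prod_type,
      Finset.sum_eq_single y]
    · rw [PM_succ, Matrix.mul_apply]
      simp only [ih, Finset.sum_mul, Finset.sum_filter]
      rw [Finset.sum_comm]
      refine Finset.sum_congr rfl fun p _ => ?_
      have e0 : (Fin.snocEquiv (fun _ : Fin (m + 2) => Ω)) (y, p) 0 = p 0 := by
        have : (0 : Fin (m + 2)) = Fin.castSucc (0 : Fin (m + 1)) := rfl
        rw [this, Fin.snocEquiv_apply, Fin.snoc_castSucc]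
      have e1 : (Fin.snocEquiv (fun _ : Fin (m + 2) => Ω)) (y, p) (Fin.last (m + 1)) = y := by
        rw [Fin.snocEquiv_apply, Fin.snoc_last]
      rw [e0, e1, Fin.prod_univ_castSucc, Finset.sum_eq_single (p (Fin.last m))]
      · by_cases h : p 0 = x
        · simp only [h, true_and, if_true, Fin.snocEquiv_apply, Fin.snoc_castSucc,
            Fin.succ_last, Fin.snoc_last, Fin.succ_castSucc, Fin.val_castSucc, Fin.val_last]
        · simp [h]
      · intro b _ hb
        simp [hb.symm]
      · simp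
    · intro b _ hb
      refine Finset.sum_eq_zero fun p _ => ?_
      rw [if_neg]
      rintro ⟨_, h2⟩
      rw [Fin.snocEquiv_apply, Fin.snoc_last] at h2
      exact hb h2
    · simp

end Vale.Agent.P346
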