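import Vale.Agent.P346.Lower1
import Vale.Agent.P346.Path

namespace Vale.Agent.P346

theorem gfun_eval (γ : ℝ) (a1 a2 a3 a4 : Bool) : gfun γ a1 a2 a3 a4 =
    if a1 then (if a3 then (if a2 && a4 then 1 else 0) else (if a2 ^^ a4 then 1 else 0))
    else (if a3 then (if a2 then (if a4 then 0 else γ) else (if a4 then 1 else 0))
      else (if a2 || a4 then 0 else 1 + γ)) := by
  cases a1 <;> cases a2 <;> cases a3 <;> cases a4 <;> simp [gfun, ind, add_comm]

theorem gfun_nonneg {γ : ℝ} (hγ : 0 < γ) (a1 a2 a3 a4 : Bool) : 0 ≤ gfun γ a1 a2 a3 a4 := by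
  rw [gfun_eval]
  split_ifs <;> linarith

theorem gfun_le {γ : ℝ} (hγ : 0 < γ) (a1 a2 a3 a4 : Bool) : gfun γ a1 a2 a3 a4 ≤ 1 + γ := by
  rw [gfun_eval]
  split_ifs <;> linarith

variable {E : Type} [Fintype E] [DecidableEq E]

theorem layer2 (γ : ℝ) (e1 : E) :
    (∏ e : E, (if decide (e = e1) then 1 else 1 + γ)) * (1 + γ) = ∏ _e : E, (1 + γ) := by
  rw [← Finset.mul_prod_erase _ _ (Finset.mem_univ e1),
    ← Finset.mul_prod_erase _ (fun _ => 1 + γ) (Finset.mem_univ e1)]
  have : ∏ e ∈ Finset.univ.erase e1, (if decide (e = e1) then 1 else 1 + γ) =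
      ∏ _e ∈ Finset.univ.erase e1, (1 + γ) := by
    refine Finset.prod_congr rfl fun e he => ?_
    simp [(Finset.mem_erase.mp he).1]
  rw [this]
  simp [mul_comm]

theorem layer4 {γ : ℝ} (hγ : 0 < γ) (e1 e2 e3 e4 : E) :
    (∏ e : E, gfun γ (decide (e = e1)) (decide (e = e2)) (decide (e = e3)) (decide (e = e4))) *
      (1 + γ) ^ 2 ≤ (∏ _e : E, (1 + γ)) *
        ((if e1 = e2 ∧ e3 = e4 then 1 else 0) + γ * (if e1 = e4 ∧ e2 = e3 then 1 else 0)) := by
  set g : E → ℝ := fun e =>
    gfun γ (decide (e = e1)) (decide (e = e2)) (decide (e = e3)) (decide (e = e4)) with hg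
  have h0 : 0 < 1 + γ := by linarith
  have h1 : ∏ e, g e = (∏ _e : E, (1 + γ)) * ∏ e, (g e / (1 + γ)) := by
    rw [← Finset.prod_mul_distrib]
    refine Finset.prod_congr rfl fun e _ => ?_
    field_simp
  have h2 : ∏ e, (g e / (1 + γ)) ≤ ∏ e ∈ ({e1, e3} : Finset E), (g e / (1 + γ)) := by
    refine Finset.prod_le_prod_of_subset_of_le_one (Finset.subset_univ _) ?_ ?_
    · intro e _
      exact div_nonneg (gfun_nonneg hγ _ _ _ _) h0.le
    · intro e _ _
      exact (div_le_one h0).mpr (gfun_le hγ _ _ _ _)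
  have h3 : (∏ e ∈ ({e1, e3} : Finset E), (g e / (1 + γ))) * (1 + γ) ^ 2 ≤
      (if e1 = e2 ∧ e3 = e4 then 1 else 0) + γ * (if e1 = e4 ∧ e2 = e3 then 1 else 0) := by
    by_cases h13 : e1 = e3
    · subst h13
      have : (g e1 / (1 + γ)) * (1 + γ) ^ 2 = g e1 * (1 + γ) := by field_simp
      rw [Finset.pair_eq_singleton, Finset.prod_singleton, this]
      simp only [hg, gfun_eval]
      by_cases h12 : e1 = e2
      · subst h12
        by_cases h14 : e1 = e4
        · subst h14; simp
        · simp [h14]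
      · have : 0 ≤ γ * (if e1 = e4 ∧ e2 = e1 then 1 else 0) := by split_ifs <;> linarith
        simpa [h12] using this
    · have : (g e1 / (1 + γ)) * (g e3 / (1 + γ)) * (1 + γ) ^ 2 = g e1 * g e3 := by field_simp
      rw [Finset.prod_pair h13, this]
      simp only [hg, gfun_eval]
      have h31 : ¬ e3 = e1 := fun h => h13 h.symm
      by_cases h12 : e1 = e2
      · subst h12
        by_cases h14 : e1 = e4
        · subst h14; simp [h13, h31]
        · by_cases h34 : e3 = e4
          · subst h34; simp [h13, h31]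
          · simp [h13, h31, h14, h34]
      · by_cases h14 : e1 = e4
        · subst h14
          by_cases h23 : e3 = e2
          · subst h23; simp [h13, h31]
          · have h32 : ¬ e2 = e3 := fun h => h23 h.symm
            simp [h13, h31, h12, h23, h32]
        · simp [h13, h12, h14]
  have h4 : 0 < ∏ _e : E, (1 + γ) := Finset.prod_pos fun _ _ => h0
  rw [h1, mul_assoc]
  refine mul_le_mul_of_nonneg_left (le_trans ?_ h3) h4.le
  exact mul_le_mul_of_nonneg_right h2 (by positivity)

variable {F : Type} [Fintype F] [DecidableEq F]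

def al (p : F × F × F × F) : ℝ := if p.1 = p.2.1 ∧ p.2.2.1 = p.2.2.2 then 1 else 0

def be (p : F × F × F × F) : ℝ := if p.1 = p.2.2.2 ∧ p.2.1 = p.2.2.1 then 1 else 0

omit [Fintype F] in
theorem al_nonneg (p : F × F × F × F) : 0 ≤ al p := by unfold al; split_ifs <;> norm_num

omit [Fintype F] in
theorem be_nonneg (p : F × F × F × F) : 0 ≤ be p := by unfold be; split_ifs <;> norm_num

theorem sum_al_al : ∑ p : F × F × F × F, al p * al p = (Fintype.card F : ℝ) ^ 2 := by
  simp [al, Fintype.sum_prod_type, ite_and, sq]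

theorem sum_be_be : ∑ p : F × F × F × F, be p * be p = (Fintype.card F : ℝ) ^ 2 := by
  simp [be, Fintype.sum_prod_type, ite_and, sq]

theorem sum_al_be : ∑ p : F × F × F × F, al p * be p = (Fintype.card F : ℝ) := by
  have : ∀ p : F × F × F × F, al p * be p =
      if p.2.1 = p.1 then (if p.2.2.1 = p.1 then (if p.2.2.2 = p.1 then 1 else 0) else 0)
        else 0 := by
    rintro ⟨a, b, c, d⟩
    simp only [al, be]
    by_cases h1 : b = a
    · subst h1
      by_cases h2 : c = b
      · subst h2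
        by_cases h3 : d = c
        · subst h3; simp
        · have : ¬ c = d := fun h => h3 h.symm
          simp [h3, this]
      · have : ¬ b = c := fun h => h2 h.symm
        simp [h2, this]
    · have : ¬ a = b := fun h => h1 h.symm
      simp [h1, this]
  simp [this, Fintype.sum_prod_type]

noncomputable def kern (γ : ℕ → ℝ) (i : ℕ) : Matrix (F × F × F × F) (F × F × F × F) ℝ :=
  Matrix.of fun p p' => al p * al p' + γ i * (be p * be p')

theorem transfer (pre : ℕ → ℝ) (γ : ℕ → ℝ) (Λ : ℝ)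
    (hγ : ∀ i, Real.exp (pre (i + 1)) = Real.exp (pre i) * γ i)
    (h1 : ∀ i, Real.exp (pre i) ≤ Λ) (h2 : ∀ i, Real.exp (- pre i) ≤ Λ) (z : F) (m : ℕ) :
    ∃ a u : ℝ, 0 ≤ a ∧ 0 ≤ u ∧
      (∀ y, PM (kern γ) m (z, z, z, z) y ≤ a * al y + Real.exp (pre m) * u * be y) ∧
      a + u ≤ ((Fintype.card F : ℝ) ^ 2 + Fintype.card F * Λ) ^ m := by
  have hγ0 : ∀ i, 0 < γ i := fun i => by
    have := Real.exp_pos (pre (i + 1))
    rw [hγ] at this
    exact (mul_pos_iff_of_pos_left (Real.exp_pos _)).mp this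
  induction m with
  | zero =>
    refine ⟨1, 0, zero_le_one, le_rfl, fun y => ?_, by simp⟩
    rw [PM_zero, Matrix.one_apply]
    split_ifs with h
    · subst h; simp [al]
    · simpa using al_nonneg y
  | succ m ih =>
    obtain ⟨a, u, ha, hu, hy, hs⟩ := ih
    set n : ℝ := (Fintype.card F : ℝ) with hn
    have hn0 : 0 ≤ n := Nat.cast_nonneg _
    have hp := Real.exp_pos (pre m)
    have hq := Real.exp_pos (- pre m)
    have hpq : Real.exp (pre m) * Real.exp (- pre m) = 1 := by rw [← Real.exp_add]; simp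
    refine ⟨a * n ^ 2 + Real.exp (pre m) * u * n, a * n * Real.exp (- pre m) + u * n ^ 2,
      by positivity, by positivity, fun y => ?_, ?_⟩
    · rw [PM_succ, Matrix.mul_apply]
      have hk : ∀ x, 0 ≤ kern γ m x y := fun x => by
        have := al_nonneg x; have := al_nonneg y; have := be_nonneg x; have := be_nonneg y
        have := hγ0 m
        simp only [kern, Matrix.of_apply]
        positivity
      refine (Finset.sum_le_sum fun x _ => mul_le_mul_of_nonneg_right (hy x) (hk x)).trans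
        (le_of_eq ?_)
      have e : ∀ x, (a * al x + Real.exp (pre m) * u * be x) * kern γ m x y =
          (a * al y) * (al x * al x) + (a * γ m * be y + Real.exp (pre m) * u * al y) *
            (al x * be x) + (Real.exp (pre m) * u * γ m * be y) * (be x * be x) := by
        intro x
        simp only [kern, Matrix.of_apply]
        ring
      simp only [e, Finset.sum_add_distrib, ← Finset.mul_sum, sum_al_al, sum_al_be, sum_be_be,
        ← hn, hγ]
      linear_combination (- γ m * a * n * be y) * hpq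
    · rw [pow_succ (n ^ 2 + n * Λ)]
      have h3 := h1 m
      have h4 := h2 m
      have hΛ : 0 ≤ Λ := hp.le.trans h3
      have h5 : Real.exp (pre m) * u * n ≤ Λ * u * n := by gcongr
      have h6 : a * n * Real.exp (- pre m) ≤ a * n * Λ := by gcongr
      have h7 : (a + u) * (n ^ 2 + n * Λ) ≤ (n ^ 2 + n * Λ) ^ m * (n ^ 2 + n * Λ) := by
        gcongr
      linarith

theorem transfer' (pre : ℕ → ℝ) (γ : ℕ → ℝ) (Λ : ℝ) (hΛ : 1 ≤ Λ)
    (hγ : ∀ i, Real.exp (pre (i + 1)) = Real.exp (pre i) * γ i)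
    (h1 : ∀ i, Real.exp (pre i) ≤ Λ) (h2 : ∀ i, Real.exp (- pre i) ≤ Λ) (z : F) :
    PM (kern γ) (Fintype.card F) (z, z, z, z) (z, z, z, z) ≤
      Λ * Real.exp Λ * ((Fintype.card F : ℝ) ^ Fintype.card F) ^ 2 := by
  obtain ⟨a, u, ha, hu, hy, hs⟩ := transfer pre γ Λ hγ h1 h2 z (Fintype.card F)
  have h3 := hy (z, z, z, z)
  simp only [al, be, and_self, if_true, mul_one] at h3
  have hn : 0 < Fintype.card F := Fintype.card_pos_iff.mpr ⟨z⟩
  generalize Fintype.card F = n at *
  have hn' : (0 : ℝ) < n := by exact_mod_cast hn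
  have h4 : ((n : ℝ) ^ 2 + n * Λ) ^ n ≤ Real.exp Λ * ((n : ℝ) ^ n) ^ 2 := by
    have e1 : (n : ℝ) ^ 2 + n * Λ = (1 + Λ / n) * n ^ 2 := by field_simp
    have e2 : (1 + Λ / n) ^ n ≤ Real.exp Λ := by
      have := Real.add_one_le_exp (Λ / n)
      calc (1 + Λ / n) ^ n ≤ (Real.exp (Λ / n)) ^ n := by
            gcongr; linarith
        _ = Real.exp Λ := by rw [← Real.exp_nat_mul]; congr 1; field_simp
    rw [e1, mul_pow, ← pow_mul, ← pow_mul, mul_comm 2 n]
    gcongr
  have h5 : Real.exp (pre n) * u ≤ Λ * u := by gcongr; exact h1 n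
  have h6 : a ≤ Λ * a := by nlinarith
  calc _ ≤ Λ * (a + u) := by linarith
    _ ≤ Λ * (Real.exp Λ * ((n : ℝ) ^ n) ^ 2) := by gcongr; exact hs.trans h4
    _ = _ := by ring

end Vale.Agent.P346
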