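import Vale.Agent.P346.Rank

namespace Vale.Agent.P346

open MvPolynomial Matrix

variable {K : Type*} [Field K] {V : Type} [Fintype V] [DecidableEq V]

noncomputable def emb (S : V → Bool) : V →₀ ℕ :=
  Finsupp.equivFunOnFinite.symm (fun x => (S x).toNat)

omit [DecidableEq V] in
@[simp] theorem emb_apply (S : V → Bool) (x : V) : emb S x = (S x).toNat := by
  simp [emb]

omit [DecidableEq V] in
theorem emb_inj {S T : V → Bool} (h : emb S = emb T) : S = T := by
  funext x
  have := DFunLike.congr_fun h x
  simp only [emb_apply] at this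
  revert this
  cases S x <;> cases T x <;> simp

omit [DecidableEq V] in
theorem exists_emb_of_le {m : V →₀ ℕ} {T : V → Bool} (h : m ≤ emb T) : ∃ U, m = emb U := by
  refine ⟨fun x => decide (m x = 1), ?_⟩
  ext x
  have := h x
  simp only [emb_apply] at this ⊢
  have h2 : (T x).toNat ≤ 1 := Bool.toNat_le _
  by_cases h1 : m x = 1
  · simp [h1]
  · simp [h1]; omega

noncomputable def MM (f : MvPolynomial V K) : Matrix (V → Bool) (V → Bool) K :=
  Matrix.of fun T S => coeff (emb T) (f * monomial (emb S) 1)

theorem coeff_emb_mul (T : V → Bool) (f h : MvPolynomial V K) :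
    coeff (emb T) (f * h) = ∑ U, coeff (emb T) (f * monomial (emb U) 1) * coeff (emb U) h := by
  induction h using MvPolynomial.induction_on' with
  | monomial m c =>
    simp only [coeff_mul_monomial', coeff_monomial]
    by_cases hm : m ≤ emb T
    · obtain ⟨U, rfl⟩ := exists_emb_of_le hm
      rw [Finset.sum_eq_single U]
      · simp [hm]
      · intro W _ hW
        have : emb U ≠ emb W := fun h => hW (emb_inj h).symm
        simp [this]
      · simp
    · rw [if_neg hm]
      symm
      refine Finset.sum_eq_zero fun U _ => ?_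
      by_cases hU : m = emb U
      · subst hU; simp [hm]
      · simp [hU]
  | add p q hp hq =>
    simp only [mul_add, coeff_add, hp, hq, Finset.sum_add_distrib]

theorem MM_mul (f g : MvPolynomial V K) : MM (f * g) = MM f * MM g := by
  ext T S
  simp only [MM, Matrix.mul_apply, Matrix.of_apply]
  rw [mul_assoc, coeff_emb_mul]

omit [DecidableEq V] in
theorem MM_add (f g : MvPolynomial V K) : MM (f + g) = MM f + MM g := by
  ext T S
  simp [MM, add_mul]

omit [DecidableEq V] in
theorem MM_smul (c : K) (f : MvPolynomial V K) : MM (c • f) = c • MM f := by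
  ext T S
  simp [MM]

omit [DecidableEq V] in
theorem MM_zero : MM (0 : MvPolynomial V K) = 0 := by
  ext T S
  simp [MM]

noncomputable def key (wt : V → ℕ × ℕ) (S : V → Bool) : ℕ × ℕ := Finsupp.weight wt (emb S)

noncomputable def DD (K : Type*) [Field K] (wt : V → ℕ × ℕ) (κ : ℕ × ℕ) :
    Matrix (V → Bool) (V → Bool) K :=
  Matrix.diagonal fun S => if key wt S = κ then 1 else 0

def ell (A B : ℝ) (κ : ℕ × ℕ) : ℝ := κ.1 * A - κ.2 * B

theorem ell_add (A B : ℝ) (a b : ℕ × ℕ) : ell A B (a + b) = ell A B a + ell A B b := by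
  simp [ell]; ring

theorem ell_zero (A B : ℝ) : ell A B 0 = 0 := by simp [ell]

noncomputable def mu (wt : V → ℕ × ℕ) (A B : ℝ) (τ : ℕ × ℕ) (f : MvPolynomial V K) : ℝ :=
  ∑ κ ∈ Finset.univ.image (key wt),
    Real.exp (ell A B κ) * ((DD K wt (κ + τ) * MM f * DD K wt κ).rank : ℝ)

noncomputable def ZZ (wt : V → ℕ × ℕ) (A B : ℝ) : ℝ := ∑ S, Real.exp (ell A B (key wt S))

variable (wt : V → ℕ × ℕ) (A B : ℝ) (τ : ℕ × ℕ)

theorem ZZ_pos : 0 < ZZ wt A B :=
  Finset.sum_pos (fun _ _ => Real.exp_pos _) Finset.univ_nonempty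

theorem mu_nonneg (f : MvPolynomial V K) : 0 ≤ mu wt A B τ f :=
  Finset.sum_nonneg fun _ _ => by positivity

theorem mu_zero : mu wt A B τ (0 : MvPolynomial V K) = 0 := by
  simp [mu, MM_zero]

theorem mu_add_le (f g : MvPolynomial V K) :
    mu wt A B τ (f + g) ≤ mu wt A B τ f + mu wt A B τ g := by
  unfold mu
  rw [← Finset.sum_add_distrib]
  refine Finset.sum_le_sum fun κ _ => ?_
  rw [← mul_add, MM_add, Matrix.mul_add, Matrix.add_mul]
  refine mul_le_mul_of_nonneg_left ?_ (Real.exp_pos _).le
  exact_mod_cast rank_add_le' _ _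

theorem mu_smul_le (c : K) (f : MvPolynomial V K) : mu wt A B τ (c • f) ≤ mu wt A B τ f := by
  unfold mu
  refine Finset.sum_le_sum fun κ _ => ?_
  rw [MM_smul, Matrix.mul_smul, Matrix.smul_mul]
  refine mul_le_mul_of_nonneg_left ?_ (Real.exp_pos _).le
  exact_mod_cast rank_smul_le' _ _

theorem mu_sum_le {ι : Type*} (s : Finset ι) (f : ι → MvPolynomial V K) :
    mu wt A B τ (∑ i ∈ s, f i) ≤ ∑ i ∈ s, mu wt A B τ (f i) := by
  classical
  induction s using Finset.induction_on with
  | empty => simp [mu_zero]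
  | insert a s ha ih =>
    rw [Finset.sum_insert ha, Finset.sum_insert ha]
    exact (mu_add_le wt A B τ _ _).trans (by linarith)

variable {wt}

omit [DecidableEq V] in
theorem MM_eq_zero {F : MvPolynomial V K} {φ : ℕ × ℕ} (hF : IsWeightedHomogeneous wt F φ)
    {T S : V → Bool} (h : key wt T ≠ key wt S + φ) : MM F T S = 0 := by
  have h1 : IsWeightedHomogeneous wt (F * monomial (emb S) (1 : K)) (φ + key wt S) :=
    hF.mul (isWeightedHomogeneous_monomial wt _ _ rfl)
  refine h1.coeff_eq_zero _ ?_
  rw [add_comm]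
  exact h

theorem mu_eq_zero {F : MvPolynomial V K} {φ : ℕ × ℕ} (hF : IsWeightedHomogeneous wt F φ)
    (h : φ ≠ τ) : mu wt A B τ F = 0 := by
  refine Finset.sum_eq_zero fun κ _ => ?_
  have : DD K wt (κ + τ) * MM F * DD K wt κ = 0 := by
    ext T S
    simp only [DD, Matrix.mul_diagonal, Matrix.diagonal_mul, Matrix.zero_apply]
    by_cases h1 : key wt T = κ + τ
    · by_cases h2 : key wt S = κ
      · rw [MM_eq_zero hF]
        · simp
        · rw [h1, h2]
          intro h3
          exact h (add_left_cancel h3).symm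
      · simp [h2]
    · simp [h1]
  simp [this]

theorem MM_mul_DD {G : MvPolynomial V K} {g : ℕ × ℕ} (hG : IsWeightedHomogeneous wt G g)
    (κ : ℕ × ℕ) : MM G * DD K wt κ = DD K wt (κ + g) * (MM G * DD K wt κ) := by
  ext T S
  simp only [DD, Matrix.mul_diagonal, Matrix.diagonal_mul]
  by_cases h1 : key wt T = κ + g
  · simp [h1]
  · by_cases h2 : key wt S = κ
    · rw [MM_eq_zero hG]
      · simp
      · rw [h2]; exact h1
    · simp [h2]

theorem rank_DD (κ : ℕ × ℕ) :
    ((DD K wt κ).rank : ℝ) = ∑ S, (if key wt S = κ then (1 : ℝ) else 0) := by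
  classical
  rw [DD, Matrix.rank_diagonal, Fintype.card_subtype, Finset.sum_boole]
  congr 2
  ext S
  simp

theorem mu_mul_le {G : MvPolynomial V K} {g : ℕ × ℕ} (hG : IsWeightedHomogeneous wt G g)
    (H : MvPolynomial V K) : mu wt A B τ (H * G) ≤ ZZ wt A B * Real.exp (- ell A B g) := by
  have h1 : ∀ κ, ((DD K wt (κ + τ) * MM (H * G) * DD K wt κ).rank : ℝ) ≤
      ∑ S, (if key wt S = κ + g then (1 : ℝ) else 0) := by
    intro κ
    rw [← rank_DD (K := K), MM_mul, Matrix.mul_assoc, Matrix.mul_assoc, MM_mul_DD hG]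
    exact_mod_cast (Matrix.rank_mul_le_right _ _).trans
      ((Matrix.rank_mul_le_right _ _).trans (Matrix.rank_mul_le_left _ _))
  calc mu wt A B τ (H * G)
      ≤ ∑ κ ∈ Finset.univ.image (key wt), Real.exp (ell A B κ) *
          ∑ S, (if key wt S = κ + g then (1 : ℝ) else 0) :=
        Finset.sum_le_sum fun κ _ => mul_le_mul_of_nonneg_left (h1 κ) (Real.exp_pos _).le
    _ = ∑ S, ∑ κ ∈ Finset.univ.image (key wt),
          (if key wt S = κ + g then Real.exp (ell A B (key wt S)) * Real.exp (- ell A B g)
            else 0) := by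
        rw [Finset.sum_comm]
        refine Finset.sum_congr rfl fun κ _ => ?_
        rw [Finset.mul_sum]
        refine Finset.sum_congr rfl fun S _ => ?_
        split_ifs with h
        · rw [h, ell_add, ← Real.exp_add]; simp
        · simp
    _ ≤ ∑ S, Real.exp (ell A B (key wt S)) * Real.exp (- ell A B g) := by
        refine Finset.sum_le_sum fun S _ => ?_
        rw [← Finset.sum_filter, Finset.sum_const, nsmul_eq_mul]
        have hc : ((Finset.univ.image (key wt)).filter (fun κ => key wt S = κ + g)).card ≤ 1 := by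
          rw [Finset.card_le_one]
          intro a ha b hb
          have h2 := (Finset.mem_filter.mp ha).2
          have h3 := (Finset.mem_filter.mp hb).2
          exact add_right_cancel (h2.symm.trans h3)
        have hc' : (((Finset.univ.image (key wt)).filter
          (fun κ => key wt S = κ + g)).card : ℝ) ≤ 1 := by exact_mod_cast hc
        have : 0 < Real.exp (ell A B (key wt S)) * Real.exp (- ell A B g) := by positivity
        nlinarith
    _ = _ := by rw [ZZ, Finset.sum_mul]

noncomputable def cc (A B : ℝ) (e : ℕ) : ℝ :=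
  ∑ a ∈ Finset.range (e + 1), Real.exp (- |ell A B (a, e - a)| / 2)

theorem cc_nonneg (e : ℕ) : 0 ≤ cc A B e := Finset.sum_nonneg fun _ _ => (Real.exp_pos _).le

omit [Fintype V] [DecidableEq V] in
theorem weight_sum (hwt : ∀ x, (wt x).1 + (wt x).2 = 1) (m : V →₀ ℕ) :
    (Finsupp.weight wt m).1 + (Finsupp.weight wt m).2 = m.degree := by
  induction m using Finsupp.induction_linear with
  | zero => simp
  | add a b ha hb => simp only [map_add, Prod.fst_add, Prod.snd_add]; omega
  | single x k =>
    simp only [Finsupp.weight_single, Finsupp.degree_single, Prod.smul_fst, Prod.smul_snd,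
      smul_eq_mul]
    rw [← mul_add, hwt, mul_one]

omit [Fintype V] in
theorem homog_split (hwt : ∀ x, (wt x).1 + (wt x).2 = 1) {q : MvPolynomial V K} {e : ℕ}
    (hq : q.IsHomogeneous e) :
    q = ∑ a ∈ Finset.range (e + 1), weightedHomogeneousComponent wt (a, e - a) q := by
  ext m
  rw [coeff_sum]
  simp only [coeff_weightedHomogeneousComponent]
  by_cases hm : coeff m q = 0
  · simp [hm]
  · have h1 : m.degree = e := by
      by_contra h
      exact hm (hq.coeff_eq_zero h)
    have h2 := weight_sum hwt m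
    rw [Finset.sum_eq_single (Finsupp.weight wt m).1]
    · rw [if_pos]
      ext
      · rfl
      · simp only; omega
    · intro b _ hb
      rw [if_neg]
      intro h
      exact hb (by rw [h])
    · intro h
      exfalso
      apply h
      rw [Finset.mem_range]
      omega

theorem mu_pattern (hwt : ∀ x, (wt x).1 + (wt x).2 = 1)
    (Q : List (MvPolynomial V K × ℕ)) (hQ : ∀ p ∈ Q, p.1.IsHomogeneous p.2) :
    ∀ (G H : MvPolynomial V K) (g h : ℕ × ℕ), IsWeightedHomogeneous wt G g →
      IsWeightedHomogeneous wt H h →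
      mu wt A B τ (H * G * (Q.map Prod.fst).prod) ≤
        ZZ wt A B * Real.exp ((ell A B h - ell A B g - ell A B τ) / 2) *
          (Q.map fun p => cc A B p.2).prod := by
  induction Q with
  | nil =>
    intro G H g h hG hH
    simp only [List.map_nil, List.prod_nil, mul_one]
    by_cases hτ : h + g = τ
    · refine (mu_mul_le A B τ hG H).trans (le_of_eq ?_)
      rw [← hτ, ell_add]
      congr 2
      ring
    · rw [mu_eq_zero A B τ (hH.mul hG) hτ]
      have := ZZ_pos wt A B
      positivity
  | cons p Q ih =>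
    intro G H g h hG hH
    obtain ⟨q, e⟩ := p
    have hq : q.IsHomogeneous e := hQ (q, e) (by simp)
    have ih' := ih (fun p hp => hQ p (by simp [hp]))
    simp only [List.map_cons, List.prod_cons]
    rw [homog_split hwt hq, Finset.sum_mul, Finset.mul_sum]
    refine (mu_sum_le wt A B τ _ _).trans ?_
    rw [cc, Finset.sum_mul, Finset.mul_sum]
    refine Finset.sum_le_sum fun a _ => ?_
    have hc := weightedHomogeneousComponent_isWeightedHomogeneous (w := wt) (a, e - a) q
    generalize weightedHomogeneousComponent wt (a, e - a) q = r at hc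
    generalize ((a, e - a) : ℕ × ℕ) = φ at hc
    rcases le_total 0 (ell A B φ) with h0 | h0
    · have := ih' (G * r) H (g + φ) h (hG.mul hc) hH
      rw [show H * G * (r * (Q.map Prod.fst).prod) = H * (G * r) * (Q.map Prod.fst).prod by ring]
      refine this.trans (le_of_eq ?_)
      rw [abs_of_nonneg h0, ell_add, ← mul_assoc, mul_assoc (ZZ wt A B) (Real.exp _) (Real.exp _),
        ← Real.exp_add]
      congr 3
      ring
    · have := ih' G (H * r) g (h + φ) hG (hH.mul hc)
      rw [show H * G * (r * (Q.map Prod.fst).prod) = H * r * G * (Q.map Prod.fst).prod by ring]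
      refine this.trans (le_of_eq ?_)
      rw [abs_of_nonpos h0, ell_add, ← mul_assoc, mul_assoc (ZZ wt A B) (Real.exp _) (Real.exp _),
        ← Real.exp_add]
      congr 3
      ring

theorem mu_prod_le (hwt : ∀ x, (wt x).1 + (wt x).2 = 1)
    (Q : List (MvPolynomial V K × ℕ)) (hQ : ∀ p ∈ Q, p.1.IsHomogeneous p.2) :
    mu wt A B τ (Q.map Prod.fst).prod ≤
      ZZ wt A B * Real.exp (- ell A B τ / 2) * (Q.map fun p => cc A B p.2).prod := by
  have := mu_pattern A B τ hwt Q hQ 1 1 0 0 (isWeightedHomogeneous_one K wt)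
    (isWeightedHomogeneous_one K wt)
  simpa [ell_zero] using this

end Vale.Agent.P346
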