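import Vale.Agent.P346.Meas

namespace Vale.Agent.P346

theorem cc_gen (A B : ℝ) (e : ℕ) : cc A B e ≤ e + 1 := by
  have : ∀ a ∈ Finset.range (e + 1), Real.exp (- |ell A B (a, e - a)| / 2) ≤ 1 := by
    intro a _
    rw [Real.exp_le_one_iff]
    have := abs_nonneg (ell A B (a, e - a))
    linarith
  simpa [cc] using Finset.sum_le_sum this

theorem cc_zero (A B : ℝ) : cc A B 0 = 1 := by simp [cc, ell]

theorem cc_one {L ε : ℝ} (hL : 48 ≤ L) (h0 : 0 ≤ ε) (h1 : ε ≤ L / 2) :
    cc (L + ε) (L - ε) 1 ≤ Real.exp (- L / 8) := by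
  have e1 : cc (L + ε) (L - ε) 1 = Real.exp (- (L - ε) / 2) + Real.exp (- (L + ε) / 2) := by
    have h2 : |ε - L| = L - ε := by rw [abs_sub_comm, abs_of_nonneg (by linarith)]
    have h3 : |L + ε| = L + ε := abs_of_nonneg (by linarith)
    simp [cc, ell, Finset.sum_range_succ, h2, h3]
  have h2 : Real.exp (- (L - ε) / 2) ≤ Real.exp (- L / 4) := Real.exp_le_exp.mpr (by linarith)
  have h3 : Real.exp (- (L + ε) / 2) ≤ Real.exp (- L / 4) := Real.exp_le_exp.mpr (by linarith)
  have h4 : Real.exp (- L / 8) = Real.exp (- L / 4) * Real.exp (L / 8) := by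
    rw [← Real.exp_add]; congr 1; ring
  have h5 := Real.add_one_le_exp (L / 8)
  have h6 := Real.exp_pos (- L / 4)
  rw [e1, h4]
  nlinarith

noncomputable def FF (s : ℝ) (e : ℕ) : ℝ :=
  ∑ a ∈ Finset.range (e + 1), if 2 * a = e then 0 else s ^ Nat.dist (2 * a) e

theorem FF_add_two (s : ℝ) (e : ℕ) : FF s (e + 2) = FF s e + 2 * s ^ (e + 2) := by
  unfold FF
  rw [Finset.sum_range_succ, Finset.sum_range_succ']
  have h1 : Nat.dist (2 * (e + 2)) (e + 2) = e + 2 := by unfold Nat.dist; omega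
  have h2 : Nat.dist (2 * 0) (e + 2) = e + 2 := by unfold Nat.dist; omega
  rw [h1, h2, if_neg (by omega), if_neg (by omega)]
  have h3 : ∑ a ∈ Finset.range (e + 1),
      (if 2 * (a + 1) = e + 2 then 0 else s ^ Nat.dist (2 * (a + 1)) (e + 2)) =
      ∑ a ∈ Finset.range (e + 1), if 2 * a = e then 0 else s ^ Nat.dist (2 * a) e := by
    refine Finset.sum_congr rfl fun a _ => ?_
    have h4 : Nat.dist (2 * (a + 1)) (e + 2) = Nat.dist (2 * a) e := by unfold Nat.dist; omega
    rw [h4]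
    exact if_congr (by omega) rfl rfl
  rw [h3]
  ring

theorem FF_mono {s : ℝ} (h0 : 0 ≤ s) (h1 : s ≤ 1 / 2) (r m : ℕ) :
    FF s (2 * m + r) + 4 * s ^ (2 * m + r + 2) ≤ FF s r + 4 * s ^ (r + 2) := by
  induction m with
  | zero => simp
  | succ m ih =>
    have e : 2 * (m + 1) + r = 2 * m + r + 2 := by ring
    rw [e, FF_add_two, pow_add s (2 * m + r + 2) 2]
    have h2 : 0 ≤ s ^ (2 * m + r + 2) := by positivity
    have h3 : s ^ 2 ≤ 1 / 4 := by nlinarith
    nlinarith

theorem FF_even {s : ℝ} (h0 : 0 ≤ s) (h1 : s ≤ 1 / 2) (m : ℕ) : FF s (2 * m) ≤ 4 * s ^ 2 := by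
  have h := FF_mono h0 h1 0 m
  have h2 : FF s 0 = 0 := by simp [FF]
  have h3 : 0 ≤ s ^ (2 * m + 0 + 2) := by positivity
  simp only [add_zero, zero_add] at h h3
  linarith

theorem FF_odd {s : ℝ} (h0 : 0 ≤ s) (h1 : s ≤ 1 / 2) (m : ℕ) : FF s (2 * m + 1) ≤ 4 * s := by
  have h := FF_mono h0 h1 1 m
  have h2 : FF s 1 = 2 * s := by
    simp [FF, Finset.sum_range_succ, Nat.dist]; ring
  have h3 : 0 ≤ s ^ (2 * m + 1 + 2) := by positivity
  have h4 : s ^ 2 ≤ 1 / 4 := by nlinarith
  have h5 : s ^ (1 + 2) = s * s ^ 2 := by ring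
  nlinarith

theorem cc_le_FF {L ε : ℝ} (hL : 0 ≤ L) (h0 : 0 ≤ ε) (e : ℕ) :
    cc (L + ε) (L - ε) e ≤
      (∑ a ∈ Finset.range (e + 1), if 2 * a = e then Real.exp (- (ε * e) / 2) else 0) +
        FF (Real.exp (- L / 2)) e * Real.exp (ε * e / 2) := by
  rw [cc, FF, Finset.sum_mul, ← Finset.sum_add_distrib]
  refine Finset.sum_le_sum fun a ha => ?_
  have hae : a ≤ e := by simpa [Nat.lt_succ_iff] using ha
  have hx : 0 ≤ ε * e := by positivity
  have h1 : ell (L + ε) (L - ε) (a, e - a) = L * (2 * a - e) + ε * e := by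
    simp only [ell, Nat.cast_sub hae]; ring
  rw [h1]
  split_ifs with h
  · have : (2 * a - e : ℝ) = 0 := by rw [← h]; push_cast; ring
    rw [this, mul_zero, zero_add, abs_of_nonneg hx]
    simp
  · rw [zero_add, ← Real.exp_nat_mul, ← Real.exp_add, Real.exp_le_exp]
    have h2 : (Nat.dist (2 * a) e : ℝ) = |(2 * a - e : ℝ)| := by
      rcases le_total (2 * a) e with h3 | h3
      · rw [Nat.dist_eq_sub_of_le h3, Nat.cast_sub h3, abs_sub_comm, abs_of_nonneg]
        · push_cast; ring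
        · have : ((2 * a : ℕ) : ℝ) ≤ e := by exact_mod_cast h3
          push_cast at this
          linarith
      · rw [Nat.dist_eq_sub_of_le_right h3, Nat.cast_sub h3, abs_of_nonneg]
        · push_cast; ring
        · have : (e : ℝ) ≤ ((2 * a : ℕ) : ℝ) := by exact_mod_cast h3
          push_cast at this
          linarith
    rw [h2]
    have h3 : |L * (2 * a - e)| ≤ |L * (2 * a - e) + ε * e| + |ε * e| := by
      have := abs_sub (L * (2 * a - e) + ε * e) (ε * e)
      simpa using this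
    rw [abs_mul, abs_of_nonneg hL, abs_of_nonneg hx] at h3
    linarith

theorem num_even {L y : ℝ} (hL : 48 ≤ L) (h1 : L * Real.exp (- L) / 4 ≤ y) (h2 : y ≤ L / 8) :
    Real.exp (- y) + 4 * Real.exp (- L) * Real.exp (3 * y) ≤ 1 := by
  have hE := Real.exp_pos (- L)
  have hy : 0 ≤ y := le_trans (by positivity) h1
  have h3 : 4 * Real.exp (- L) * Real.exp (4 * y) ≤ y := by
    rcases le_total y (1 / 4) with h | h
    · have h4 : Real.exp (4 * y) ≤ 3 :=
        (Real.exp_le_exp.mpr (by linarith : 4 * y ≤ 1)).trans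
          (by linarith [Real.exp_one_lt_d9])
      nlinarith
    · have h4 : Real.exp (- L) * Real.exp (4 * y) * Real.exp (L / 2) ≤ 1 := by
        rw [← Real.exp_add, ← Real.exp_add, Real.exp_le_one_iff]; linarith
      have h5 := Real.add_one_le_exp (L / 2)
      have h6 : 0 < Real.exp (- L) * Real.exp (4 * y) := by positivity
      nlinarith
  have h4 : Real.exp (4 * y) = Real.exp (3 * y) * Real.exp y := by
    rw [← Real.exp_add]; congr 1; ring
  have h5 := Real.add_one_le_exp y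
  have h6 : Real.exp (- y) * Real.exp y = 1 := by rw [← Real.exp_add]; simp
  have h7 := Real.exp_pos y
  refine le_of_mul_le_mul_right ?_ h7
  rw [h4] at h3
  nlinarith

theorem cc_small {L : ℝ} (hL : 48 ≤ L) (e : ℕ) (he : (e : ℝ) ≤ Real.exp L) :
    cc (L + L * Real.exp (- L) / 2) (L - L * Real.exp (- L) / 2) e ≤
      Real.exp (- (L * Real.exp (- L) / 2 * e) / 4) := by
  set ε := L * Real.exp (- L) / 2 with hε
  have hE := Real.exp_pos (- L)
  have hε0 : 0 ≤ ε := by positivity
  have hx : ε * e ≤ L / 2 := by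
    have h1 : Real.exp (- L) * Real.exp L = 1 := by rw [← Real.exp_add]; simp
    calc ε * e ≤ ε * Real.exp L := by gcongr
      _ = L / 2 := by rw [hε]; linear_combination (L / 2) * h1
  have hs0 := (Real.exp_pos (- L / 2)).le
  have hs1 : Real.exp (- L / 2) ≤ 1 / 2 := by
    have h1 : Real.exp (- L / 2) * Real.exp (L / 2) = 1 := by rw [← Real.exp_add]; simp [neg_div]
    have h2 := Real.add_one_le_exp (L / 2)
    nlinarith
  have h := cc_le_FF (L := L) (by linarith) hε0 e
  rcases Nat.even_or_odd' e with ⟨m, rfl | rfl⟩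
  · rcases Nat.eq_zero_or_pos m with rfl | hm
    · simp [cc_zero]
    have h1 : (∑ a ∈ Finset.range (2 * m + 1),
        if 2 * a = 2 * m then Real.exp (- (ε * (2 * m : ℕ)) / 2) else 0) =
        Real.exp (- (ε * (2 * m : ℕ)) / 2) := by
      rw [Finset.sum_eq_single m]
      · simp
      · intro b _ hb
        rw [if_neg (by omega)]
      · intro h
        exact absurd (Finset.mem_range.mpr (by omega)) h
    rw [h1] at h
    have h2 := FF_even hs0 hs1 m
    have h3 : Real.exp (- L / 2) ^ 2 = Real.exp (- L) := by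
      rw [← Real.exp_nat_mul]; congr 1; push_cast; ring
    rw [h3] at h2
    have h4 : (2 : ℝ) ≤ (2 * m : ℕ) := by exact_mod_cast (by omega : 2 ≤ 2 * m)
    generalize ((2 * m : ℕ) : ℝ) = t at *
    have h5 := num_even (y := ε * t / 4) hL (by nlinarith) (by linarith)
    have h6 : Real.exp (- (ε * t) / 2) = Real.exp (- (ε * t / 4)) * Real.exp (- (ε * t) / 4) := by
      rw [← Real.exp_add]; congr 1; ring
    have h7 : Real.exp (ε * t / 2) = Real.exp (3 * (ε * t / 4)) * Real.exp (- (ε * t) / 4) := by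
      rw [← Real.exp_add]; congr 1; ring
    have h8 := Real.exp_pos (- (ε * t) / 4)
    have h9 := mul_le_mul_of_nonneg_right h5 h8.le
    have h10 := mul_le_mul_of_nonneg_right h2 (Real.exp_pos (ε * t / 2)).le
    rw [h7] at h10 h
    rw [h6] at h
    nlinarith
  · have h1 : (∑ a ∈ Finset.range (2 * m + 1 + 1),
        if 2 * a = 2 * m + 1 then Real.exp (- (ε * (2 * m + 1 : ℕ)) / 2) else 0) = 0 :=
      Finset.sum_eq_zero fun a _ => if_neg (by omega)
    rw [h1, zero_add] at h
    have h2 := FF_odd hs0 hs1 m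
    generalize ((2 * m + 1 : ℕ) : ℝ) = t at *
    have h3 := mul_le_mul_of_nonneg_right h2 (Real.exp_pos (ε * t / 2)).le
    refine h.trans (h3.trans ?_)
    have h4 : Real.exp (- (ε * t) / 4) =
        Real.exp (L / 2 - 3 * (ε * t) / 4) * (Real.exp (- L / 2) * Real.exp (ε * t / 2)) := by
      rw [← Real.exp_add, ← Real.exp_add]; congr 1; ring
    have h5 := Real.add_one_le_exp (L / 2 - 3 * (ε * t) / 4)
    have h6 : 0 < Real.exp (- L / 2) * Real.exp (ε * t / 2) := by positivity
    rw [h4, mul_assoc]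
    exact mul_le_mul_of_nonneg_right (by linarith) h6.le

end Vale.Agent.P346
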