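import Mathlib

namespace Vale.Agent.P346

open Matrix

variable {I : Type} [Fintype I] [DecidableEq I]

omit [DecidableEq I] in
theorem rank_add_le' {K : Type*} [Field K] (A B : Matrix I I K) :
    (A + B).rank ≤ A.rank + B.rank := by
  unfold Matrix.rank
  rw [Matrix.mulVecLin_add]
  refine le_trans (Submodule.finrank_mono (LinearMap.range_add_le _ _)) ?_
  exact Submodule.finrank_add_le_finrank_add_finrank _ _

theorem rank_smul_le' {K : Type*} [Field K] (c : K) (A : Matrix I I K) :
    (c • A).rank ≤ A.rank := by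
  have : c • A = (c • (1 : Matrix I I K)) * A := by simp
  rw [this]
  exact Matrix.rank_mul_le_right _ _

theorem rank_map_eq {K E : Type*} [Field K] [Field E] (φ : K →+* E) (A : Matrix I I K) :
    (A.map φ).rank = A.rank := by
  classical
  obtain ⟨L, L', D, h⟩ := Matrix.Pivot.exists_list_transvec_mul_diagonal_mul_list_transvec A
  have h1 := Matrix.TransvectionStruct.det_toMatrix_prod L
  have h2 := Matrix.TransvectionStruct.det_toMatrix_prod L'
  generalize (L.map Matrix.TransvectionStruct.toMatrix).prod = P at h h1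
  generalize (L'.map Matrix.TransvectionStruct.toMatrix).prod = Q at h h2
  have h3 : (P.map φ).det = 1 := by
    have := RingHom.map_det φ P
    rw [h1, map_one] at this
    exact this.symm
  have h4 : (Q.map φ).det = 1 := by
    have := RingHom.map_det φ Q
    rw [h2, map_one] at this
    exact this.symm
  rw [h, Matrix.map_mul, Matrix.map_mul, Matrix.diagonal_map (map_zero φ),
    Matrix.rank_mul_eq_left_of_isUnit_det _ _ (by rw [h4]; exact isUnit_one),
    Matrix.rank_mul_eq_right_of_isUnit_det _ _ (by rw [h3]; exact isUnit_one),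
    Matrix.rank_mul_eq_left_of_isUnit_det _ _ (by rw [h2]; exact isUnit_one),
    Matrix.rank_mul_eq_right_of_isUnit_det _ _ (by rw [h1]; exact isUnit_one),
    Matrix.rank_diagonal, Matrix.rank_diagonal]
  simp

theorem rank_natCast_eq (K : Type*) [Field K] [CharZero K] (N : Matrix I I ℕ) :
    (N.map (fun a : ℕ => (a : K))).rank = (N.map (fun a : ℕ => (a : ℝ))).rank := by
  have h1 : N.map (fun a : ℕ => (a : K)) = (N.map (fun a : ℕ => (a : ℚ))).map (Rat.castHom K) := by
    ext i j; simp
  have h2 : N.map (fun a : ℕ => (a : ℝ)) = (N.map (fun a : ℕ => (a : ℚ))).map (Rat.castHom ℝ) := by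
    ext i j; simp
  rw [h1, h2, rank_map_eq, rank_map_eq]

theorem trace_sq_le (B : Matrix I I ℝ) (hB : B.IsHermitian) :
    B.trace ^ 2 ≤ (B.rank : ℝ) * (B * B).trace := by
  classical
  have h1 : B.trace = ∑ i, hB.eigenvalues i := by
    simpa using hB.trace_eq_sum_eigenvalues
  have h2 : (B * B).trace = ∑ i, hB.eigenvalues i ^ 2 := by
    have h := hB.spectral_theorem
    have h' : B * B = Unitary.conjStarAlgAut ℝ _ hB.eigenvectorUnitary
        (diagonal (RCLike.ofReal ∘ hB.eigenvalues) * diagonal (RCLike.ofReal ∘ hB.eigenvalues)) := by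
      rw [map_mul, ← h]
    rw [h', Unitary.conjStarAlgAut_apply, Matrix.trace_mul_cycle]
    simp [sq]
  have h3 : (B.rank : ℝ) = ∑ i, (if hB.eigenvalues i ≠ 0 then (1 : ℝ) else 0) := by
    rw [hB.rank_eq_card_non_zero_eigs, Fintype.card_subtype, Finset.sum_boole]
  rw [h1, h2, h3]
  refine Finset.sum_sq_le_sum_mul_sum_of_sq_le_mul _ ?_ ?_ ?_
  · intro i _; split_ifs <;> norm_num
  · intro i _; positivity
  · intro i _
    by_cases h : hB.eigenvalues i = 0 <;> simp [h]

theorem trace_sq_le' (A : Matrix I I ℝ) :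
    (∑ S, ∑ T, A T S ^ 2) ^ 2 ≤ (A.rank : ℝ) * ∑ S, ∑ S', (∑ T, A T S * A T S') ^ 2 := by
  have h := trace_sq_le (Aᵀ * A) (by
    have := Matrix.isHermitian_conjTranspose_mul_self A
    simpa using this)
  rw [Matrix.rank_transpose_mul_self] at h
  have e1 : (Aᵀ * A).trace = ∑ S, ∑ T, A T S ^ 2 := by
    simp [Matrix.trace, Matrix.mul_apply, sq]
  have e2 : (Aᵀ * A * (Aᵀ * A)).trace = ∑ S, ∑ S', (∑ T, A T S * A T S') ^ 2 := by
    simp only [Matrix.trace, Matrix.diag]
    refine Finset.sum_congr rfl fun S _ => ?_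
    rw [Matrix.mul_apply]
    refine Finset.sum_congr rfl fun S' _ => ?_
    simp only [Matrix.mul_apply, Matrix.transpose_apply, sq]
    congr 1
    exact Finset.sum_congr rfl fun T _ => mul_comm _ _
  rwa [e1, e2] at h

end Vale.Agent.P346
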