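import Vale.Agent.P346.Path
import Vale.Agent.P346.Bound

namespace Vale.Agent.P346

open MvPolynomial

universe u

variable (K : Type u) [Field K]

def node (n t : ℕ) (x y : Fin n) : Var n n ⊕ Bool :=
  if h : t < n then Sum.inl (⟨t, h⟩, x, y) else Sum.inr (decide (x = y))

theorem path_nonempty {n b : ℕ} (x y : Fin n) : ((Finset.univ : Finset (Fin (b + 1 + 1) → Fin n)).filter
    (fun p => p 0 = x ∧ p (Fin.last (b + 1)) = y)).Nonempty :=
  ⟨fun i => if i = 0 then x else y, Finset.mem_filter.mpr ⟨Finset.mem_univ _, if_pos rfl,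
    if_neg (Fin.last_pos.ne')⟩⟩

noncomputable def UC (n b : ℕ) (z : Fin n) : Circ K (Var n n) where
  G0 := Var n n ⊕ Bool
  G1 := Var n n ⊕ Bool
  G2 := Fin (b + 1) × (Fin (b + 1 + 1) → Fin n)
  G3 := Fin (b + 1) × Fin n × Fin n
  G4 := Fin (b + 1 + 1) → Fin n
  fin0 := inferInstance
  fin1 := inferInstance
  fin2 := inferInstance
  fin3 := inferInstance
  fin4 := inferInstance
  leaf := Sum.elim Sum.inl (fun c => Sum.inr (if c then 1 else 0))
  in1 := fun g => {g}
  co1 := fun _ _ => 1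
  in2 := fun g => (Finset.univ : Finset (Fin (b + 1))).val.map
    fun r : Fin (b + 1) => node n (g.1 * (b + 1) + r) (g.2 r.castSucc) (g.2 r.succ)
  in3 := fun g => ((Finset.univ : Finset (Fin (b + 1 + 1) → Fin n)).filter
    (fun p => p 0 = g.2.1 ∧ p (Fin.last (b + 1)) = g.2.2)).map ⟨fun p => (g.1, p), fun _ _ h =>
      (Prod.ext_iff.mp h).2⟩
  co3 := fun _ _ => 1
  in4 := fun p => (Finset.univ : Finset (Fin (b + 1))).val.map
    fun j : Fin (b + 1) => (j, p j.castSucc, p j.succ)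
  in5 := (Finset.univ : Finset (Fin (b + 1 + 1) → Fin n)).filter
    (fun p => p 0 = z ∧ p (Fin.last (b + 1)) = z)
  co5 := fun _ => 1
  ne1 := fun g => Finset.singleton_nonempty g
  ne2 := fun g => by simp
  ne3 := fun g => (path_nonempty g.2.1 g.2.2).map
  ne4 := fun g => by simp
  ne5 := path_nonempty z z

noncomputable def NM (n t : ℕ) : Matrix (Fin n) (Fin n) (MvPolynomial (Var n n) K) :=
  if h : t < n then Matrix.of fun x y => X (⟨t, h⟩, x, y) else 1

variable {n b : ℕ} (z : Fin n)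

theorem UC_val1 (t : ℕ) (x y : Fin n) : (UC K n b z).val1 (node n t x y) = NM K n t x y := by
  have : (UC K n b z).val1 (node n t x y) = (UC K n b z).val0 (node n t x y) := by
    unfold Circ.val1
    exact (Finset.sum_singleton _ _).trans (one_smul _ _)
  rw [this]
  unfold node NM
  by_cases h : t < n
  · rw [dif_pos h, dif_pos h]; rfl
  · rw [dif_neg h, dif_neg h, Matrix.one_apply]
    change (C (if decide (x = y) then (1 : K) else 0) : MvPolynomial (Var n n) K) = _
    by_cases hxy : x = y <;> simp [hxy]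

theorem UC_deg1 (t : ℕ) (x y : Fin n) :
    (UC K n b z).deg1 (node n t x y) = if t < n then 1 else 0 := by
  have : (UC K n b z).deg1 (node n t x y) = (UC K n b z).deg0 (node n t x y) := by
    unfold Circ.deg1
    exact Finset.sup_singleton
  rw [this]
  unfold node
  by_cases h : t < n
  · rw [dif_pos h, if_pos h]; rfl
  · rw [dif_neg h, if_neg h]; rfl

theorem UC_val2 (j : Fin (b + 1)) (p : Fin (b + 1 + 1) → Fin n) :
    (UC K n b z).val2 (j, p) =
      ∏ r : Fin (b + 1), NM K n (j * (b + 1) + r) (p r.castSucc) (p r.succ) := by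
  simp only [← UC_val1 K (b := b) z]
  unfold Circ.val2
  exact congrArg Multiset.prod (Multiset.map_map (UC K n b z).val1
    (fun r : Fin (b + 1) => node n (j * (b + 1) + r) (p r.castSucc) (p r.succ)) Finset.univ.val)

theorem UC_deg2 (j : Fin (b + 1)) (p : Fin (b + 1 + 1) → Fin n) :
    (UC K n b z).deg2 (j, p) = ∑ r : Fin (b + 1), if j * (b + 1) + r < n then 1 else 0 := by
  have : (UC K n b z).deg2 (j, p) = ∑ r : Fin (b + 1),
      (UC K n b z).deg1 (node n (j * (b + 1) + r) (p r.castSucc) (p r.succ)) := by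
    unfold Circ.deg2
    exact congrArg Multiset.sum (Multiset.map_map (UC K n b z).deg1
      (fun r : Fin (b + 1) => node n (j * (b + 1) + r) (p r.castSucc) (p r.succ)) Finset.univ.val)
  simp only [this, UC_deg1]

theorem UC_val3 (j : Fin (b + 1)) (x y : Fin n) :
    (UC K n b z).val3 (j, x, y) = PM (fun r => NM K n (j * (b + 1) + r)) (b + 1) x y := by
  rw [PM_path]
  unfold Circ.val3
  refine (Finset.sum_map _ _ _).trans (Finset.sum_congr rfl fun p _ => ?_)
  exact (one_smul _ _).trans (UC_val2 K z j p)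

theorem UC_hom3 (g : (UC K n b z).G3) : ∀ a ∈ (UC K n b z).in3 g,
    (UC K n b z).deg2 a = ∑ r : Fin (b + 1), if g.1 * (b + 1) + r < n then 1 else 0 := by
  intro a ha
  obtain ⟨p, _, rfl⟩ := Finset.mem_map.mp ha
  exact UC_deg2 K z g.1 p

theorem UC_deg3 (g : (UC K n b z).G3) :
    (UC K n b z).deg3 g = ∑ r : Fin (b + 1), if g.1 * (b + 1) + r < n then 1 else 0 := by
  obtain ⟨a, ha⟩ := (UC K n b z).ne3 g
  rw [← UC_hom3 K z g a ha]
  exact sup_eq_of_const (fun a ha b hb => by rw [UC_hom3 K z g a ha, UC_hom3 K z g b hb]) ha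

theorem UC_deg4 (p : Fin (b + 1 + 1) → Fin n) :
    (UC K n b z).deg4 p =
      ∑ j : Fin (b + 1), ∑ r : Fin (b + 1), if j * (b + 1) + r < n then 1 else 0 := by
  have : (UC K n b z).deg4 p = ∑ j : Fin (b + 1),
      (UC K n b z).deg3 (j, p j.castSucc, p j.succ) := by
    unfold Circ.deg4
    exact congrArg Multiset.sum (Multiset.map_map (UC K n b z).deg3
      (fun j : Fin (b + 1) => (j, p j.castSucc, p j.succ)) Finset.univ.val)
  rw [this]
  exact Finset.sum_congr rfl fun j _ => UC_deg3 K z _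

theorem UC_homog : (UC K n b z).Homog := by
  refine ⟨fun g a ha c hc => ?_, fun g a ha c hc => ?_, fun a _ c _ => ?_⟩
  · rw [Finset.mem_singleton.mp ha, Finset.mem_singleton.mp hc]
  · rw [UC_hom3 K z g a ha, UC_hom3 K z g c hc]
  · exact (UC_deg4 K z a).trans (UC_deg4 K z c).symm

theorem UC_value : (UC K n b z).value = PM (NM K n) ((b + 1) * (b + 1)) z z := by
  rw [PM_blocks, PM_path]
  unfold Circ.value
  refine Finset.sum_congr rfl fun p _ => (one_smul _ _).trans ?_
  simp only [← UC_val3 K (b := b) z]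
  unfold Circ.val4
  exact congrArg Multiset.prod (Multiset.map_map (UC K n b z).val3
    (fun j : Fin (b + 1) => (j, p j.castSucc, p j.succ)) Finset.univ.val)

theorem PM_NM (hn : 0 < n) {m : ℕ} (hm : n ≤ m) :
    PM (NM K n) m ⟨0, hn⟩ ⟨0, hn⟩ = IMM K n n := by
  obtain ⟨c, rfl⟩ := Nat.exists_eq_add_of_le hm
  rw [PM_add, PM_one (fun r => NM K n (n + r)) (fun i => by simp [NM]), Matrix.mul_one, PM_path]
  refine Finset.sum_congr (by ext v; simp [Fin.ext_iff]) fun v _ => ?_
  refine Finset.prod_congr rfl fun i _ => ?_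
  simp [NM]

theorem UC_size : (UC K n b z).size = (n * (n * n) + 2) + (n * (n * n) + 2) +
    (b + 1) * n ^ (b + 1 + 1) + (b + 1) * (n * n) + n ^ (b + 1 + 1) + 1 := by
  unfold Circ.size
  simp [UC]

theorem exists_circ (hn : 2 ≤ n) : ∃ C : Circ K (Var n n), C.Homog ∧ C.value = IMM K n n ∧
    C.size ≤ n ^ (Nat.sqrt n + 7) := by
  have hn0 : 0 < n := by omega
  refine ⟨UC K n (Nat.sqrt n) ⟨0, hn0⟩, UC_homog K _, ?_, ?_⟩
  · rw [UC_value, PM_NM K hn0 (Nat.lt_succ_sqrt n).le]
  · rw [UC_size]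
    have h1 : Nat.sqrt n + 1 ≤ n := Nat.sqrt_lt_self (by omega)
    generalize Nat.sqrt n = b at *
    have h2 : 1 ≤ n ^ b := Nat.one_le_pow _ _ hn0
    have h3 : n ^ (b + 1 + 1) = n ^ b * (n * n) := by ring
    have h4 : n ^ (b + 7) = n ^ b * (n * (n * n)) * n ^ 4 := by ring
    have h5 : 2 ^ 4 ≤ n ^ 4 := Nat.pow_le_pow_left hn 4
    have h6 : n * (n * n) ≤ n ^ b * (n * (n * n)) := Nat.le_mul_of_pos_left _ h2
    have h7 : (b + 1) * (n ^ b * (n * n)) ≤ n ^ b * (n * (n * n)) := by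
      calc _ ≤ n * (n ^ b * (n * n)) := Nat.mul_le_mul_right _ h1
        _ = _ := by ring
    have h8 : (b + 1) * (n * n) ≤ n * (n * n) := Nat.mul_le_mul_right _ h1
    have h9 : n ^ b * (n * n) ≤ (b + 1) * (n ^ b * (n * n)) := Nat.le_mul_of_pos_left _ (by omega)
    have h10 : 0 < n * (n * n) := by positivity
    rw [h3, h4]
    calc _ ≤ n ^ b * (n * (n * n)) * 2 ^ 4 := by omega
      _ ≤ _ := Nat.mul_le_mul_left _ h5

end Vale.Agent.P346
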